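import Vale.Agent.P073.WeakExt

/-!
P073, triangular class: the approximating diffeomorphisms of the cube.
-/

namespace Vale.Agent.P073

open MeasureTheory Filter Topology Set
open scoped ContDiff

variable {n : ℕ}

/-- The scales. -/
noncomputable def scale (k : ℕ) : ℝ := 1 / ((k : ℝ) + 8)

theorem scale_pos (k : ℕ) : 0 < scale k := by unfold scale; positivity

theorem scale_le (k : ℕ) : scale k ≤ 1 / 8 :=
  one_div_le_one_div_of_le (by norm_num) (by linarith [(k.cast_nonneg : (0 : ℝ) ≤ k)])

theorem tendsto_scale : Tendsto scale atTop (𝓝 0) :=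
  tendsto_const_nhds.div_atTop (tendsto_natCast_atTop_atTop.atTop_add tendsto_const_nhds)

/-- Linear part of the change of variable for the `i`-th component. -/
noncomputable def lin (k : ℕ) (i : Fin n) : Sp n :=
  fun j => if j = i then 1 + 4 * scale k else 1 - 4 * scale k

/-- Constant part of the change of variable for the `i`-th component. -/
noncomputable def sft (k : ℕ) (i : Fin n) : Sp n :=
  fun j => if j = i then -(2 * scale k) else 2 * scale k

/-- The mollified component in the new variable. -/
noncomputable def mcomp (f : Sp n → Sp n) (k : ℕ) (i : Fin n) (x : Sp n) : ℝ :=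
  mol (scale k) (scale_pos k) (extC f i) (aff (lin k i) (sft k i) x)

/-- The approximants. -/
noncomputable def approx (f : Sp n → Sp n) (k : ℕ) (x : Sp n) : Sp n := fun i =>
  (1 - scale k) * ((mcomp f k i x + 2 * scale k) / (1 + 4 * scale k)) + scale k * x i

variable {f : Sp n → Sp n} (hf : TriangularHomeo f)
include hf

theorem contDiff_mcomp (k : ℕ) (i : Fin n) : ContDiff ℝ ∞ (mcomp f k i) :=
  (contDiff_mol (locallyIntegrable_extC hf)).comp (contDiff_aff _ _)

theorem contDiff_approx (k : ℕ) : ContDiff ℝ ∞ (approx f k) :=
  contDiff_pi.2 fun i => (contDiff_const.mul (((contDiff_mcomp hf k i).add contDiff_const).div_const _)).add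
    (contDiff_const.mul (contDiff_apply ℝ ℝ i))

omit hf in
theorem approx_tri {k : ℕ} {i : Fin n} {x y : Sp n} (h : ∀ j, j ≤ i → x j = y j) :
    approx f k x i = approx f k y i := by
  have e : mcomp f k i x = mcomp f k i y := by
    unfold mcomp
    rw [mol_eq_shift, mol_eq_shift]
    refine integral_congr_ae (ae_of_all _ fun t => ?_)
    show extC f i _ * _ = extC f i _ * _
    rw [extC_tri fun j hj => ?_]
    simp [aff, h j hj]
  simp only [approx, e, h i le_rfl]

/-- Along the `i`-th axis the `i`-th component grows at least linearly. -/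
theorem approx_line (k : ℕ) (i : Fin n) (x : Sp n) :
    Monotone fun t => approx f k (Function.update x i t) i - scale k * t := by
  intro s t hst
  set z := aff (lin k i) (sft k i) x
  have hupd : ∀ r : ℝ, aff (lin k i) (sft k i) (Function.update x i r) =
      Function.update z i ((1 + 4 * scale k) * r - 2 * scale k) := fun r => funext fun j => by
    by_cases hj : j = i
    · subst hj; simp [aff, lin, sft, sub_eq_add_neg]
    · simp [aff, lin, sft, z, hj]
  have hint : ∀ w : Sp n, Integrable (fun q => extC f i (w - q) * moll (scale k) (scale_pos k) q) volume := by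
    intro w
    refine ((mol_integrable (ε := scale k) (hε := scale_pos k) (locallyIntegrable_extC (i := i) hf) w).comp_sub_left w).congr
      (ae_of_all _ fun q => ?_)
    show extC f i (w - q) * _ = _
    rw [sub_sub_cancel]
  have hm : mcomp f k i (Function.update x i s) ≤ mcomp f k i (Function.update x i t) := by
    unfold mcomp
    rw [mol_eq_shift, mol_eq_shift, hupd, hupd]
    refine integral_mono (hint _) (hint _) fun q => ?_
    refine mul_le_mul_of_nonneg_right ?_ (moll_nonneg _)
    have e : ∀ r : ℝ, Function.update z i r - q = Function.update (z - q) i (r - q i) := fun r =>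
      funext fun j => by
        by_cases hj : j = i
        · subst hj; simp
        · simp [hj]
    rw [e, e]
    refine (extC_line (i := i) hf (z - q)).1 ?_
    have := mul_le_mul_of_nonneg_left hst (show 0 ≤ 1 + 4 * scale k by linarith [scale_pos k])
    linarith
  simp only [approx, Function.update_self, add_sub_cancel_right]
  exact mul_le_mul_of_nonneg_left
    (div_le_div_of_nonneg_right (by linarith) (by linarith [scale_pos k])) (by linarith [scale_le k])

theorem approx_strictMono (k : ℕ) (i : Fin n) (x : Sp n) :
    StrictMono fun t => approx f k (Function.update x i t) i := by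
  intro s t hst
  have h := approx_line hf k i x hst.le
  have := mul_lt_mul_of_pos_left hst (scale_pos k)
  simp only at h ⊢
  linarith

omit hf in
/-- The two faces are mapped to `0` and `1`. -/
theorem approx_face (k : ℕ) (i : Fin n) (x : Sp n) :
    (x i = 0 → approx f k x i = 0) ∧ (x i = 1 → approx f k x i = 1) := by
  have hε := scale_pos k
  have key : (x i = 0 ∨ x i = 1) → mcomp f k i x = (1 + 4 * scale k) * x i - 2 * scale k := by
    intro hx
    unfold mcomp
    rw [mol_congr (v := fun t => t i) fun t ht => ?_, mol_coord]
    · simp [aff, lin, sft, sub_eq_add_neg]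
    · refine extC_of_outside fun hm => ?_
      have h1 := abs_le.1 ((norm_le_pi_norm (aff (lin k i) (sft k i) x - t) i).trans ht)
      simp only [Pi.sub_apply, aff, lin, sft, if_pos] at h1
      rcases hx with hx | hx <;> rw [hx] at h1 <;> linarith [hm.1, hm.2]
  constructor
  · intro hx
    simp [approx, key (Or.inl hx), hx]
  · intro hx
    simp only [approx, key (Or.inr hx), hx]
    rw [show (1 + 4 * scale k) * 1 - 2 * scale k + 2 * scale k = 1 + 4 * scale k by ring,
      div_self (by positivity)]
    ring

theorem approx_maps (k : ℕ) : MapsTo (approx f k) (cube n) (cube n) := by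
  intro x hx
  refine mem_cube.2 fun i => ?_
  have h := mem_cube.1 hx i
  have e0 := (approx_face (f := f) k i (Function.update x i 0)).1 (by simp)
  have e1 := (approx_face (f := f) k i (Function.update x i 1)).2 (by simp)
  have m0 := approx_strictMono hf k i x h.1
  have m1 := approx_strictMono hf k i x h.2
  simp only [Function.update_eq_self] at m0 m1
  exact ⟨e0 ▸ m0, e1 ▸ m1⟩

theorem approx_injective (k : ℕ) : Function.Injective (approx f k) := by
  intro x y hxy
  by_contra hne
  obtain ⟨i₀, hi₀⟩ := Function.ne_iff.1 hne
  set S : Finset (Fin n) := Finset.univ.filter fun j => x j ≠ y j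
  have hS : S.Nonempty := ⟨i₀, by simp [S, hi₀]⟩
  set i := S.min' hS
  have hi : x i ≠ y i := (Finset.mem_filter.1 (S.min'_mem hS)).2
  have hlt : ∀ j, j < i → x j = y j := fun j hj => by
    by_contra h
    exact not_le.2 hj (S.min'_le j (by simp [S, h]))
  have e : approx f k y i = approx f k (Function.update x i (y i)) i := approx_tri fun j hj => by
    rcases hj.eq_or_lt with rfl | h
    · simp
    · rw [Function.update_of_ne h.ne, hlt j h]
  have h2 : approx f k (Function.update x i (x i)) i = approx f k (Function.update x i (y i)) i := by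
    rw [Function.update_eq_self, ← e, hxy]
  exact hi ((approx_strictMono hf k i x).injective h2)

theorem approx_surjOn (k : ℕ) : SurjOn (approx f k) (cube n) (cube n) := by
  intro y hy
  suffices h : ∀ m : ℕ, ∃ x ∈ cube n, ∀ i : Fin n, (i : ℕ) < m → approx f k x i = y i by
    obtain ⟨x, hx, hxy⟩ := h n
    exact ⟨x, hx, funext fun i => hxy i i.isLt⟩
  intro m
  induction m with
  | zero => exact ⟨fun _ => 1 / 2, mem_cube.2 fun _ => by norm_num, fun i hi => absurd hi (Nat.not_lt_zero _)⟩
  | succ m ih =>
    obtain ⟨x, hx, hxy⟩ := ih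
    rcases le_or_gt n m with hn | hn
    · exact ⟨x, hx, fun i _ => hxy i (lt_of_lt_of_le i.isLt hn)⟩
    set i : Fin n := ⟨m, hn⟩
    set h : ℝ → ℝ := fun t => approx f k (Function.update x i t) i
    have hc : Continuous h := (continuous_apply i).comp
      ((contDiff_approx hf k).continuous.comp (continuous_const.update i continuous_id))
    have h0 : h 0 = 0 := (approx_face (f := f) k i _).1 (by simp)
    have h1 : h 1 = 1 := (approx_face (f := f) k i _).2 (by simp)
    obtain ⟨t, ht, hty⟩ := intermediate_value_Ioo zero_le_one hc.continuousOn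
      (show y i ∈ Ioo (h 0) (h 1) by rw [h0, h1]; exact mem_cube.1 hy i)
    refine ⟨Function.update x i t, mem_cube.2 fun j => ?_, fun j hj => ?_⟩
    · by_cases hji : j = i
      · subst hji; simpa using ht
      · rw [Function.update_of_ne hji]; exact mem_cube.1 hx j
    · rcases Nat.lt_succ_iff_lt_or_eq.1 hj with hlt | heq
      · rw [← hxy j hlt]
        refine approx_tri fun l hl => Function.update_of_ne ?_ _ _
        intro e
        subst e
        exact absurd (Fin.le_def.1 hl) (not_le.2 hlt)
      · obtain rfl : j = i := Fin.ext heq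
        exact hty

omit hf in
theorem fderiv_coord (F : Sp n → Sp n) {x : Sp n} (hd : DifferentiableAt ℝ F x) (v : Sp n) (i : Fin n) :
    HasDerivAt (fun t : ℝ => F (x + t • v) i) (fderiv ℝ F x v i) 0 := by
  have h : HasDerivAt (fun t : ℝ => x + t • v) v 0 := by
    simpa using ((hasDerivAt_id (0 : ℝ)).smul_const v).const_add x
  have h2 : HasDerivAt (fun t : ℝ => F (x + t • v)) (fderiv ℝ F x v) 0 :=
    hd.hasFDerivAt.comp_hasDerivAt_of_eq 0 h (by simp)
  exact hasDerivAt_pi.1 h2 i

/-- The derivative of an approximant is injective. -/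
theorem fderiv_approx_injective (k : ℕ) (x : Sp n) : Function.Injective (fderiv ℝ (approx f k) x) := by
  have hd : DifferentiableAt ℝ (approx f k) x := (contDiff_approx hf k).differentiable (by simp) x
  refine (injective_iff_map_eq_zero _).2 fun v hv => ?_
  by_contra hne
  obtain ⟨i₀, hi₀⟩ := Function.ne_iff.1 hne
  set S : Finset (Fin n) := Finset.univ.filter fun j => v j ≠ 0
  have hS : S.Nonempty := ⟨i₀, Finset.mem_filter.2 ⟨Finset.mem_univ _, hi₀⟩⟩
  set i := S.min' hS
  have hi : v i ≠ 0 := (Finset.mem_filter.1 (S.min'_mem hS)).2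
  have hlt : ∀ j, j < i → v j = 0 := fun j hj => by
    by_contra h
    exact not_le.2 hj (S.min'_le j (by simp [S, h]))
  -- only the `i`-th coordinate of `v` matters for the `i`-th component
  have e : ∀ t : ℝ, approx f k (x + t • v) i = approx f k (x + t • Pi.single i (v i)) i := fun t =>
    approx_tri fun j hj => by
      rcases hj.eq_or_lt with rfl | h
      · simp
      · simp [hlt j h, h.ne]
  have h1 := fderiv_coord _ hd v i
  have h2 := fderiv_coord _ hd (Pi.single i (1 : ℝ)) i
  have h3 := fderiv_coord _ hd (Pi.single i (v i)) i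
  rw [funext e, hv] at h1
  have h4 := h1.unique h3
  rw [show Pi.single i (v i) = v i • Pi.single i (1 : ℝ) by
    ext j; by_cases hj : j = i <;> simp [hj], map_smul] at h4
  have hline : ∀ t : ℝ, x + t • Pi.single i (1 : ℝ) = Function.update x i (x i + t) := fun t => by
    ext j; by_cases hj : j = i
    · subst hj; simp
    · simp [hj]
  have hd0 : 0 < fderiv ℝ (approx f k) x (Pi.single i 1) i := by
    have hm : Monotone fun t => approx f k (x + t • Pi.single i (1 : ℝ)) i - scale k * t := by
      intro s t hst
      have h := approx_line hf k i x (add_le_add (le_refl (x i)) hst)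
      simp only [hline] at *
      linarith
    have h := hm.deriv_nonneg (x := (0 : ℝ))
    have h5 : HasDerivAt (fun t => approx f k (x + t • Pi.single i (1 : ℝ)) i - scale k * t)
        (fderiv ℝ (approx f k) x (Pi.single i 1) i - scale k * 1) 0 :=
      h2.sub ((hasDerivAt_id (0 : ℝ)).const_mul (scale k))
    rw [h5.deriv] at h
    linarith [scale_pos k]
  simp only [Pi.zero_apply, Pi.smul_apply, smul_eq_mul] at h4
  exact (mul_ne_zero hi hd0.ne') h4.symm

/-- The approximants are diffeomorphisms of the cube. -/
theorem exists_inverse (k : ℕ) :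
    ∃ G : Sp n → Sp n, ContDiffOn ℝ ∞ G (cube n) ∧ MapsTo G (cube n) (cube n) ∧
      InvOn G (approx f k) (cube n) (cube n) := by
  have hb : BijOn (approx f k) (cube n) (cube n) :=
    ⟨approx_maps hf k, (approx_injective hf k).injOn, approx_surjOn hf k⟩
  set G := Function.invFunOn (approx f k) (cube n)
  have hinv : InvOn G (approx f k) (cube n) (cube n) := hb.invOn_invFunOn
  refine ⟨G, fun y hy => ?_, hb.surjOn.mapsTo_invFunOn, hinv⟩
  obtain ⟨x, hx, rfl⟩ := hb.surjOn hy
  set L := fderiv ℝ (approx f k) x
  set E : Sp n ≃L[ℝ] Sp n :=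
    (LinearEquiv.ofInjectiveEndo L.toLinearMap (fderiv_approx_injective hf k x)).toContinuousLinearEquiv
  have hE : (E : Sp n →L[ℝ] Sp n) = L := ContinuousLinearMap.ext fun v => rfl
  have hd : HasFDerivAt (approx f k) (E : Sp n →L[ℝ] Sp n) x := by
    rw [hE]; exact ((contDiff_approx hf k).differentiable (by simp) x).hasFDerivAt
  have hk : ContDiffAt ℝ ∞ (approx f k) x := (contDiff_approx hf k).contDiffAt
  have hl := hk.to_localInverse hd (by simp)
  refine (hl.congr_of_eventuallyEq ?_).contDiffWithinAt
  filter_upwards [(hk.hasStrictFDerivAt' hd (by simp)).eventually_right_inverse,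
    (isOpen_cube n).mem_nhds hy] with y hy1 hy2
  refine approx_injective hf k ?_
  rw [hinv.2 hy2]
  exact hy1.symm

end Vale.Agent.P073
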