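import Vale.Agent.P073.Approx

/-!
P073, triangular class: the approximants converge in `W^{1,p}`.
-/

namespace Vale.Agent.P073

open MeasureTheory Filter Topology Set
open scoped ContDiff

variable {n : ℕ}

/-- The closed box around the cube. -/
def box (n : ℕ) : Set (Sp n) := Set.univ.pi fun _ => Icc (-1 : ℝ) 2

theorem isCompact_box (n : ℕ) : IsCompact (box n) := isCompact_univ_pi fun _ => isCompact_Icc

theorem cube_subset_box (n : ℕ) : cube n ⊆ box n := fun x hx j _ =>
  ⟨by linarith [(mem_cube.1 hx j).1], by linarith [(mem_cube.1 hx j).2]⟩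

theorem memLp_continuous {h : Sp n → ℝ} (hh : Continuous h) (p : ENNReal) :
    MemLp h p (volume.restrict (cube n)) := by
  obtain ⟨C, hC⟩ := (isCompact_box n).exists_bound_of_continuousOn hh.continuousOn
  exact MemLp.of_bound hh.aestronglyMeasurable C
    ((ae_restrict_mem (measurableSet_cube n)).mono fun x hx => hC x (cube_subset_box n hx))

theorem integrable_abs_rpow {p : ℝ} (hp : 0 < p) {μ : Measure (Sp n)} {h : Sp n → ℝ}
    (hh : MemLp h (ENNReal.ofReal p) μ) : Integrable (fun x => |h x| ^ p) μ := by
  have := hh.integrable_norm_rpow (ENNReal.ofReal_pos.2 hp).ne' ENNReal.ofReal_ne_top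
  rw [ENNReal.toReal_ofReal hp.le] at this
  simpa only [Real.norm_eq_abs] using this

theorem aff_near {k : ℕ} {i : Fin n} {x : Sp n} (hx : x ∈ cube n) {t : Sp n}
    (ht : ‖aff (lin k i) (sft k i) x - t‖ ≤ scale k) (j : Fin n) :
    (j ≠ i → t j ∈ Ioo (0 : ℝ) 1) ∧ t j ∈ Icc (-1 : ℝ) 2 := by
  have hε := scale_pos k
  have hε' := scale_le k
  have h := abs_le.1 ((norm_le_pi_norm (aff (lin k i) (sft k i) x - t) j).trans ht)
  have hxj := mem_cube.1 hx j
  have h1 := mul_pos hε hxj.1
  have h2 := mul_le_mul_of_nonneg_left hxj.2.le hε.le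
  by_cases hji : j = i
  · simp only [Pi.sub_apply, aff, lin, sft, if_pos hji] at h
    exact ⟨fun hne => absurd hji hne, ⟨by linarith [hxj.1], by linarith [hxj.2]⟩⟩
  · simp only [Pi.sub_apply, aff, lin, sft, if_neg hji] at h
    have h3 : 0 < x j * (1 - 4 * scale k) := mul_pos hxj.1 (by linarith)
    have h4 : 0 < (1 - x j) * (1 - 4 * scale k) := mul_pos (by linarith [hxj.2]) (by linarith)
    exact ⟨fun _ => ⟨by linarith, by linarith⟩, ⟨by linarith, by linarith⟩⟩

theorem tendsto_lin (i : Fin n) : Tendsto (fun k => lin k i) atTop (𝓝 fun _ => 1) :=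
  tendsto_pi_nhds.2 fun j => by
    by_cases hji : j = i
    · simpa [lin, hji] using (tendsto_scale.const_mul 4).const_add 1
    · simpa [lin, hji] using (tendsto_scale.const_mul 4).const_sub 1

theorem tendsto_sft (i : Fin n) : Tendsto (fun k => sft k i) atTop (𝓝 0) :=
  tendsto_pi_nhds.2 fun j => by
    by_cases hji : j = i
    · simpa [sft, hji] using (tendsto_scale.const_mul 2).neg
    · simpa [sft, hji] using tendsto_scale.const_mul 2

/-- An affine correction of a mollification still converges. -/
theorem tendsto_affine_mol {p : ℝ} (hp : 1 ≤ p) (i : Fin n) {U h : Sp n → ℝ}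
    (hU : LocallyIntegrable U volume) (hUB : MemLp ((box n).indicator U) (ENNReal.ofReal p) volume)
    (hUh : ∀ x ∈ cube n, U x = h x) {c : ℕ → ℝ} {D : ℕ → Sp n → ℝ} {d : ℕ → ℝ}
    (hc : Tendsto c atTop (𝓝 1)) (hd : Tendsto d atTop (𝓝 0))
    (hDb : ∀ k, ∀ x ∈ cube n, |D k x| ≤ d k) {Φ : ℕ → Sp n → ℝ}
    (hΦ : ∀ k, ∀ x ∈ cube n,
      Φ k x = c k * mol (scale k) (scale_pos k) U (aff (lin k i) (sft k i) x) + D k x) :
    Tendsto (fun k => ∫ x in cube n, |Φ k x - h x| ^ p) atTop (𝓝 0) := by
  have hp0 : 0 < p := lt_of_lt_of_le one_pos hp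
  set W := (box n).indicator U
  have hWU : ∀ k, ∀ x ∈ cube n, mol (scale k) (scale_pos k) U (aff (lin k i) (sft k i) x) =
      mol (scale k) (scale_pos k) W (aff (lin k i) (sft k i) x) := fun k x hx =>
    mol_congr fun t ht => (indicator_of_mem (show t ∈ box n from fun j _ => (aff_near hx ht j).2) U).symm
  have hWh : ∀ x ∈ cube n, W x = h x := fun x hx => by
    rw [← hUh x hx]; exact indicator_of_mem (cube_subset_box n hx) U
  set M : ℕ → Sp n → ℝ := fun k x => mol (scale k) (scale_pos k) U (aff (lin k i) (sft k i) x)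
  have hMc : ∀ k, Continuous (M k) := fun k => (contDiff_mol hU).continuous.comp (continuous_aff _ _)
  have hlim := tendsto_mol hp hUB scale_pos tendsto_scale (tendsto_lin i) (tendsto_sft i)
  set R : ℕ → ℝ := fun k => ∫ x in cube n, |mol (scale k) (scale_pos k) W (aff (lin k i) (sft k i) x) - W x| ^ p
  set J : ℝ := ∫ x in cube n, |W x| ^ p
  set V : ℝ := volume.real (cube n)
  have hbound : Tendsto (fun k => 3 ^ p * (|c k| ^ p * R k + |c k - 1| ^ p * J + |d k| ^ p * V)) atTop (𝓝 0) := by
    have h1 := (hc.abs.rpow_const (Or.inr hp0.le)).mul hlim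
    have h2 := (((hc.sub_const 1).abs).rpow_const (Or.inr hp0.le)).mul_const J
    have h3 := (hd.abs.rpow_const (Or.inr hp0.le)).mul_const V
    have h4 := ((h1.add h2).add h3).const_mul ((3 : ℝ) ^ p)
    simpa [Real.zero_rpow hp0.ne'] using h4
  refine squeeze_zero (fun k => integral_nonneg fun x => Real.rpow_nonneg (abs_nonneg _) _)
    (fun k => ?_) hbound
  have hWm : MemLp W (ENNReal.ofReal p) (volume.restrict (cube n)) := hUB.restrict _
  have hi1 : IntegrableOn (fun x => |c k| ^ p *
      |mol (scale k) (scale_pos k) W (aff (lin k i) (sft k i) x) - W x| ^ p) (cube n) volume := by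
    refine (((integrable_abs_rpow hp0 ((memLp_continuous (hMc k) _).sub hWm)).congr ?_)).const_mul _
    filter_upwards [ae_restrict_mem (measurableSet_cube n)] with x hx
    simp only [Pi.sub_apply, M, hWU k x hx]
  have hi2 : IntegrableOn (fun x => |c k - 1| ^ p * |W x| ^ p) (cube n) volume :=
    (integrable_abs_rpow hp0 hWm).const_mul _
  have hi3 : IntegrableOn (fun _ : Sp n => |d k| ^ p) (cube n) volume := integrable_const _
  have hi12 : IntegrableOn (fun x => |c k| ^ p *
      |mol (scale k) (scale_pos k) W (aff (lin k i) (sft k i) x) - W x| ^ p +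
      |c k - 1| ^ p * |W x| ^ p) (cube n) volume := hi1.add hi2
  refine (integral_mono_of_nonneg (μ := volume.restrict (cube n))
    (ae_of_all _ fun x => Real.rpow_nonneg (abs_nonneg _) _) ((hi12.add hi3).const_mul (3 ^ p))
    ((ae_restrict_mem (measurableSet_cube n)).mono fun x hx => ?_)).trans_eq ?_
  · show |Φ k x - h x| ^ p ≤ 3 ^ p * (|c k| ^ p *
      |mol (scale k) (scale_pos k) W (aff (lin k i) (sft k i) x) - W x| ^ p +
      |c k - 1| ^ p * |W x| ^ p + |d k| ^ p)
    set P := mol (scale k) (scale_pos k) W (aff (lin k i) (sft k i) x)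
    have e : Φ k x - h x = c k * (P - W x) + (c k - 1) * W x + D k x := by
      rw [hΦ k x hx, ← hWh x hx, hWU k x hx]; ring
    rw [e]
    refine (rpow_abs_add_le hp0.le _ _ _).trans (mul_le_mul_of_nonneg_left ?_ (by positivity))
    rw [abs_mul, abs_mul, Real.mul_rpow (abs_nonneg _) (abs_nonneg _),
      Real.mul_rpow (abs_nonneg _) (abs_nonneg _)]
    exact add_le_add le_rfl
      (Real.rpow_le_rpow (abs_nonneg _) ((hDb k x hx).trans (le_abs_self _)) hp0.le)
  · rw [integral_const_mul]
    congr 1
    simp only [Pi.add_apply]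
    rw [integral_add hi12 hi3, integral_add hi1 hi2, integral_const_mul, integral_const_mul,
      setIntegral_const, smul_eq_mul, mul_comm (volume.real (cube n))]

variable {p : ℝ} {f : Sp n → Sp n} {g : Fin n → Fin n → Sp n → ℝ}

theorem memLp_box_extC (hf : TriangularHomeo f) (i : Fin n) :
    MemLp ((box n).indicator (extC f i)) (ENNReal.ofReal p) volume := by
  refine (memLp_indicator_iff_restrict (isCompact_box n).measurableSet).2 ?_
  have : IsFiniteMeasure (volume.restrict (box n)) :=
    ⟨by rw [Measure.restrict_apply_univ]; exact (isCompact_box n).measure_lt_top⟩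
  refine MemLp.of_bound (measurable_extC hf).aestronglyMeasurable 3
    ((ae_restrict_mem (isCompact_box n).measurableSet).mono fun x hx => ?_)
  have h1 := abs_extC_sub_le (i := i) hf x
  have h2 := hx i trivial
  rw [Real.norm_eq_abs, abs_le]
  rw [abs_le] at h1
  constructor <;> linarith [h2.1, h2.2]

theorem memLp_box_extG (hW : InW p f g) (i j : Fin n) :
    MemLp ((box n).indicator (extG g i j)) (ENNReal.ofReal p) volume := by
  have hB := (isCompact_box n).measurableSet
  have e : (box n).indicator (extG g i j) =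
      (cube n).indicator (g i j) + (box n \ cube n).indicator fun _ => if j = i then (1 : ℝ) else 0 := by
    funext x
    by_cases hc : x ∈ cube n
    · simp [hc, cube_subset_box n hc, extG_of_mem]
    · by_cases hb : x ∈ box n
      · simp [hc, hb, extG_of_notMem hc]
      · simp [hc, hb]
  rw [e]
  refine ((memLp_indicator_iff_restrict (measurableSet_cube n)).2 (hW.2.1 i j)).add ?_
  refine memLp_indicator_const _ (hB.diff (measurableSet_cube n)) _ (Or.inr ?_)
  exact ((measure_mono Set.sdiff_subset).trans_lt (isCompact_box n).measure_lt_top).ne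

/-- The derivative of an approximant is a mollified weak derivative up to vanishing corrections. -/
theorem fderiv_approx (hf : TriangularHomeo f) (hp : 1 ≤ p) (hW : InW p f g) (k : ℕ) (i j : Fin n)
    {x : Sp n} (hx : x ∈ cube n) :
    fderiv ℝ (approx f k) x (Pi.single j 1) i =
      (1 - scale k) / (1 + 4 * scale k) * lin k i j *
        mol (scale k) (scale_pos k) (extG g i j) (aff (lin k i) (sft k i) x) +
      scale k * (if j = i then 1 else 0) := by
  set z := aff (lin k i) (sft k i) x
  obtain ⟨L, hL, hLv⟩ := hasFDerivAt_mol (ε := scale k) (hε := scale_pos k)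
    (locallyIntegrable_extC (i := i) hf) z
  -- the derivative of the mollification is the mollified weak derivative
  have hLj : L (Pi.single j 1) = mol (scale k) (scale_pos k) (extG g i j) z := by
    rw [hLv]
    set φ : Sp n → ℝ := fun t => moll (scale k) (scale_pos k) (z - t)
    have hφ : ContDiff ℝ ∞ φ := contDiff_moll.comp (contDiff_const.sub contDiff_id)
    have hsupp : tsupport φ ⊆ Metric.closedBall z (scale k) := by
      refine closure_minimal (fun t ht => ?_) Metric.isClosed_closedBall
      rw [Metric.mem_closedBall, dist_eq_norm, norm_sub_rev]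
      exact le_of_not_gt fun h => ht (moll_eq_zero h)
    have hφc : HasCompactSupport φ := (isCompact_closedBall _ _).of_isClosed_subset
      (isClosed_tsupport _) hsupp
    have hslab : tsupport φ ⊆ slab i := fun t ht l hl => by
      have := hsupp ht
      rw [Metric.mem_closedBall, dist_eq_norm, norm_sub_rev] at this
      exact (aff_near hx this l).1 hl
    have hd : ∀ t, fderiv ℝ φ t (Pi.single j 1) =
        -fderiv ℝ (moll (scale k) (scale_pos k)) (z - t) (Pi.single j 1) := fun t => by
      have h1 := (((contDiff_moll (ε := scale k) (hε := scale_pos k)).differentiable (by simp)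
        (z - t)).hasFDerivAt).comp t ((hasFDerivAt_id t).const_sub z)
      rw [show fderiv ℝ φ t = _ from h1.fderiv]
      simp
    have h := extC_weakGrad hf hp hW i hφ hφc hslab j
    simp only [hd, mul_neg, integral_neg, neg_inj] at h
    exact h
  have hA : HasDerivAt (fun t : ℝ => aff (lin k i) (sft k i) (x + t • (Pi.single j 1 : Sp n)))
      (lin k i j • (Pi.single j 1 : Sp n)) 0 := by
    have e : (fun t : ℝ => aff (lin k i) (sft k i) (x + t • (Pi.single j 1 : Sp n))) =
        fun t : ℝ => z + t • (lin k i j • (Pi.single j 1 : Sp n)) := by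
      funext t
      ext l
      by_cases hl : l = j
      · subst hl; simp [z, aff]; ring
      · simp [z, aff, hl]
    rw [e]
    simpa using ((hasDerivAt_id (0 : ℝ)).smul_const (lin k i j • (Pi.single j 1 : Sp n))).const_add z
  have hm : HasDerivAt (fun t : ℝ => mcomp f k i (x + t • (Pi.single j 1 : Sp n)))
      (L (lin k i j • (Pi.single j 1 : Sp n))) 0 :=
    hL.comp_hasDerivAt_of_eq 0 hA (by simp [z])
  have hxi : HasDerivAt (fun t : ℝ => (x + t • (Pi.single j 1 : Sp n)) i) ((Pi.single j 1 : Sp n) i) 0 := by
    simpa using ((hasDerivAt_id (0 : ℝ)).mul_const ((Pi.single j 1 : Sp n) i)).const_add (x i)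
  have hF : HasDerivAt (fun t : ℝ => approx f k (x + t • (Pi.single j 1 : Sp n)) i)
      ((1 - scale k) * (L (lin k i j • (Pi.single j 1 : Sp n)) / (1 + 4 * scale k)) +
        scale k * ((Pi.single j 1 : Sp n) : Sp n) i) 0 :=
    (((hm.add_const (2 * scale k)).div_const _).const_mul _).add (hxi.const_mul _)
  rw [(fderiv_coord _ ((contDiff_approx hf k).differentiable (by simp) x) _ i).unique hF, map_smul, hLj]
  simp only [smul_eq_mul, Pi.single_apply, eq_comm (a := i)]
  ring

/-- Every triangular Sobolev homeomorphism of the cube is diffeomorphically approximable. -/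
theorem exists_diffeo_approx (hf : TriangularHomeo f) (hp : 1 ≤ p) (hW : InW p f g) :
    ∃ F : ℕ → Sp n → Sp n,
      (∀ k, ContDiffOn ℝ ∞ (F k) (cube n) ∧ BijOn (F k) (cube n) (cube n) ∧
        (∃ G : Sp n → Sp n, ContDiffOn ℝ ∞ G (cube n) ∧ MapsTo G (cube n) (cube n) ∧
          InvOn G (F k) (cube n) (cube n)) ∧
        (∀ i, MemLp (fun x => F k x i) (ENNReal.ofReal p) (volume.restrict (cube n))) ∧
        ∀ i j, MemLp (fun x => fderiv ℝ (F k) x (Pi.single j 1) i) (ENNReal.ofReal p)
          (volume.restrict (cube n))) ∧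
      (∀ i, Tendsto (fun k => ∫ x in cube n, |F k x i - f x i| ^ p) atTop (𝓝 0)) ∧
      ∀ i j, Tendsto (fun k => ∫ x in cube n, |fderiv ℝ (F k) x (Pi.single j 1) i - g i j x| ^ p)
        atTop (𝓝 0) := by
  have hc0 : Tendsto (fun k => (1 - scale k) / (1 + 4 * scale k)) atTop (𝓝 1) := by
    have h := (tendsto_scale.const_sub 1).div ((tendsto_scale.const_mul 4).const_add 1) (by norm_num)
    simp only [mul_zero, add_zero, sub_zero, div_one] at h
    exact h
  refine ⟨approx f, fun k => ⟨(contDiff_approx hf k).contDiffOn,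
    ⟨approx_maps hf k, (approx_injective hf k).injOn, approx_surjOn hf k⟩, exists_inverse hf k,
    fun i => memLp_continuous ((continuous_apply i).comp (contDiff_approx hf k).continuous) _,
    fun i j => memLp_continuous ((continuous_apply i).comp
      (((contDiff_approx hf k).continuous_fderiv (by simp)).clm_apply continuous_const)) _⟩,
    fun i => ?_, fun i j => ?_⟩
  · refine tendsto_affine_mol hp i (locallyIntegrable_extC hf) (memLp_box_extC hf i)
      (fun x hx => extC_of_cube hf hx) (c := fun k => (1 - scale k) / (1 + 4 * scale k))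
      (D := fun k x => (1 - scale k) / (1 + 4 * scale k) * (2 * scale k) + scale k * x i)
      (d := fun k => 3 * scale k) hc0 (by simpa using tendsto_scale.const_mul 3) (fun k x hx => ?_) ?_
    · have hε := scale_pos k
      have hε' := scale_le k
      have h1 : (1 - scale k) / (1 + 4 * scale k) ≤ 1 := (div_le_one (by linarith)).2 (by linarith)
      have h2 : 0 ≤ (1 - scale k) / (1 + 4 * scale k) := div_nonneg (by linarith) (by linarith)
      have h3 := mem_cube.1 hx i
      have h4 := mul_le_mul_of_nonneg_right h1 (show 0 ≤ 2 * scale k by linarith)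
      have h5 := mul_le_mul_of_nonneg_left h3.2.le hε.le
      have h6 := mul_pos hε h3.1
      have h7 : 0 ≤ (1 - scale k) / (1 + 4 * scale k) * (2 * scale k) := by positivity
      rw [abs_of_nonneg (by linarith)]
      linarith
    · intro k x _
      simp only [approx, mcomp]
      ring
  · refine tendsto_affine_mol hp i (locallyIntegrable_extG hp hW i j) (memLp_box_extG hW i j)
      (fun x hx => extG_of_mem hx) (c := fun k => (1 - scale k) / (1 + 4 * scale k) * lin k i j)
      (D := fun k _ => scale k * (if j = i then 1 else 0)) (d := scale) ?_ tendsto_scale (fun k x _ => ?_)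
      fun k x hx => fderiv_approx hf hp hW k i j hx
    · simpa using hc0.mul (tendsto_pi_nhds.1 (tendsto_lin i) j)
    · rw [abs_mul, abs_of_pos (scale_pos k)]
      refine mul_le_of_le_one_right (scale_pos k).le ?_
      split_ifs <;> simp

end Vale.Agent.P073
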