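import Vale.Agent.P073.Mollify

/-!
P073, triangular class: Sobolev maps of the cube and triangular homeomorphisms.
-/

namespace Vale.Agent.P073

open MeasureTheory Set
open scoped ContDiff

variable {n : ℕ}

/-- `g` is the weak gradient of `u` in `Ω`. -/
def HasWeakGrad (Ω : Set (Sp n)) (u : Sp n → ℝ) (g : Fin n → Sp n → ℝ) : Prop :=
  ∀ φ : Sp n → ℝ, ContDiff ℝ ∞ φ → HasCompactSupport φ → tsupport φ ⊆ Ω →
    ∀ j : Fin n, ∫ x in Ω, u x * fderiv ℝ φ x (Pi.single j 1) = -∫ x in Ω, g j x * φ x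

/-- `f` is a map of class `W^{1,p}` on the cube with weak derivative matrix `g`. -/
def InW (p : ℝ) (f : Sp n → Sp n) (g : Fin n → Fin n → Sp n → ℝ) : Prop :=
  (∀ i, MemLp (fun x => f x i) (ENNReal.ofReal p) (volume.restrict (cube n))) ∧
    (∀ i j, MemLp (g i j) (ENNReal.ofReal p) (volume.restrict (cube n))) ∧
    ∀ i, HasWeakGrad (cube n) (fun x => f x i) (g i)

/-- A continuous self-map of the cube whose `i`-th component depends only on the first `i`
coordinates and is an increasing bijection of the interval in the `i`-th one. -/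
structure TriangularHomeo (f : Sp n → Sp n) : Prop where
  cont : ContinuousOn f (cube n)
  maps : ∀ x ∈ cube n, f x ∈ cube n
  tri : ∀ x ∈ cube n, ∀ y ∈ cube n, ∀ i, (∀ j, j ≤ i → x j = y j) → f x i = f y i
  mono : ∀ x ∈ cube n, ∀ i, StrictMonoOn (fun t => f (Function.update x i t) i) (Ioo 0 1)
  onto : ∀ x ∈ cube n, ∀ i, SurjOn (fun t => f (Function.update x i t) i) (Ioo 0 1) (Ioo 0 1)

end Vale.Agent.P073
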