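import Vale.Agent.P073.Defs

/-!
P073, triangular class: a component of a triangular map, continued by its own coordinate beyond the
two faces it maps to `0` and `1`, is weakly differentiable across these faces.
-/

namespace Vale.Agent.P073

open MeasureTheory Filter Topology Set
open scoped ContDiff

variable {n : ℕ}

/-- Keep the coordinates up to `i`. -/
noncomputable def compl2 (i : Fin n) (y : Sp n) : Sp n := fun j => if j ≤ i then y j else 1 / 2

/-- The sites where the `i`-th component is given by the map. -/
def dom (i : Fin n) : Set (Sp n) := {y | ∀ j, j ≤ i → y j ∈ Ioo (0 : ℝ) 1}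

/-- The slab where only the `i`-th coordinate is free. -/
def slab (i : Fin n) : Set (Sp n) := {y | ∀ j, j ≠ i → y j ∈ Ioo (0 : ℝ) 1}

open Classical in
/-- The `i`-th component continued by the coordinate. -/
noncomputable def extC (f : Sp n → Sp n) (i : Fin n) : Sp n → ℝ :=
  (dom i).piecewise (fun y => f (compl2 i y) i) fun y => y i

open Classical in
/-- The gradient of the continued component. -/
noncomputable def extG (g : Fin n → Fin n → Sp n → ℝ) (i j : Fin n) : Sp n → ℝ :=
  (cube n).piecewise (g i j) fun _ => if j = i then 1 else 0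

theorem compl2_mem {i : Fin n} {y : Sp n} (h : y ∈ dom i) : compl2 i y ∈ cube n := by
  refine mem_cube.2 fun j => ?_
  by_cases hj : j ≤ i
  · simp only [compl2, if_pos hj]; exact h j hj
  · simp only [compl2, if_neg hj]; norm_num

theorem cube_subset_dom (i : Fin n) : cube n ⊆ dom i := fun _ hy j _ => mem_cube.1 hy j

theorem continuous_compl2 (i : Fin n) : Continuous (compl2 i) :=
  continuous_pi fun j => by
    by_cases hj : j ≤ i
    · simp only [compl2, if_pos hj]; fun_prop
    · simp only [compl2, if_neg hj]; fun_prop

theorem isOpen_dom (i : Fin n) : IsOpen (dom i) := by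
  have : dom i = ⋂ j ∈ {j : Fin n | j ≤ i}, (fun y : Sp n => y j) ⁻¹' Ioo 0 1 := by
    ext y; simp [dom]
  rw [this]
  exact (Set.toFinite _).isOpen_biInter fun j _ => isOpen_Ioo.preimage (continuous_apply j)

theorem update_mem_dom {i : Fin n} {y : Sp n} (hy : ∀ j, j < i → y j ∈ Ioo (0 : ℝ) 1) (t : ℝ) :
    Function.update y i t ∈ dom i ↔ t ∈ Ioo (0 : ℝ) 1 := by
  refine ⟨fun h => by simpa using h i le_rfl, fun ht j hj => ?_⟩
  rcases hj.eq_or_lt with rfl | hlt
  · simpa using ht
  · rw [Function.update_of_ne hlt.ne]; exact hy j hlt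

theorem compl2_update (i : Fin n) (y : Sp n) (t : ℝ) :
    compl2 i (Function.update y i t) =
      Function.update (compl2 i (Function.update y i (1 / 2))) i t := by
  funext j
  by_cases h : j = i
  · subst h; simp [compl2]
  · simp [compl2, Function.update_of_ne h]

variable {f : Sp n → Sp n} {g : Fin n → Fin n → Sp n → ℝ} {i : Fin n}

theorem extC_of_mem {y : Sp n} (h : y ∈ dom i) : extC f i y = f (compl2 i y) i :=
  @Set.piecewise_eq_of_mem _ _ (dom i) _ _ (Classical.decPred _) _ h

theorem extC_of_notMem {y : Sp n} (h : y ∉ dom i) : extC f i y = y i :=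
  @Set.piecewise_eq_of_notMem _ _ (dom i) _ _ (Classical.decPred _) _ h

theorem extC_of_outside {y : Sp n} (h : y i ∉ Ioo (0 : ℝ) 1) : extC f i y = y i :=
  extC_of_notMem fun hd => h (hd i le_rfl)

/-- The continued component depends only on the coordinates up to `i`. -/
theorem extC_tri {x y : Sp n} (h : ∀ j, j ≤ i → x j = y j) : extC f i x = extC f i y := by
  have hc : compl2 i x = compl2 i y := funext fun j => by
    by_cases hj : j ≤ i <;> simp [compl2, hj, h]
  by_cases hx : x ∈ dom i
  · rw [extC_of_mem hx, extC_of_mem (show y ∈ dom i from fun j hj => h j hj ▸ hx j hj), hc]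
  · rw [extC_of_notMem hx, extC_of_notMem (show y ∉ dom i from fun hy => hx fun j hj => by
      rw [h j hj]; exact hy j hj)]
    exact h i le_rfl

variable (hf : TriangularHomeo f)
include hf

theorem extC_of_cube {y : Sp n} (hy : y ∈ cube n) : extC f i y = f y i := by
  rw [extC_of_mem (cube_subset_dom i hy)]
  exact hf.tri _ (compl2_mem (cube_subset_dom i hy)) y hy i fun j hj => by simp [compl2, hj]

theorem measurable_extC : Measurable (extC f i) := by
  classical
  refine ContinuousOn.measurable_piecewise ?_ (continuous_apply i).continuousOn (isOpen_dom i).measurableSet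
  exact (continuous_apply i).comp_continuousOn
    (hf.cont.comp (continuous_compl2 i).continuousOn fun y hy => compl2_mem hy)

theorem abs_extC_sub_le (y : Sp n) : |extC f i y - y i| ≤ 1 := by
  by_cases h : y ∈ dom i
  · rw [extC_of_mem h]
    have h1 := mem_cube.1 (hf.maps _ (compl2_mem h)) i
    have h2 := h i le_rfl
    rw [abs_le]
    constructor <;> linarith [h1.1, h1.2, h2.1, h2.2]
  · rw [extC_of_notMem h, sub_self, abs_zero]; exact zero_le_one

theorem locallyIntegrable_extC : LocallyIntegrable (extC f i) volume := by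
  refine MeasureTheory.locallyIntegrable_iff.2 fun K hK => ?_
  refine Integrable.mono' (((continuous_apply i).abs.add continuous_const).continuousOn.integrableOn_compact hK)
    (measurable_extC hf).aestronglyMeasurable (ae_of_all _ fun y => ?_) (g := fun y => |y i| + 1)
  rw [Real.norm_eq_abs]
  have h := abs_extC_sub_le (i := i) hf y
  have h' := abs_sub_abs_le_abs_sub (extC f i y) (y i)
  linarith

/-- Along the `i`-th axis the continued component is increasing and onto. -/
theorem extC_line (y : Sp n) :
    Monotone (fun t => extC f i (Function.update y i t)) ∧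
      Continuous (fun t => extC f i (Function.update y i t)) := by
  by_cases hy : ∀ j, j < i → y j ∈ Ioo (0 : ℝ) 1
  swap
  · have h : (fun t => extC f i (Function.update y i t)) = id := funext fun t => by
      rw [extC_of_notMem fun hd => hy fun j hj => by
        simpa [Function.update_of_ne hj.ne] using hd j hj.le]
      simp
    rw [h]
    exact ⟨monotone_id, continuous_id⟩
  set z := compl2 i (Function.update y i (1 / 2))
  have hz : z ∈ cube n := compl2_mem ((update_mem_dom hy _).2 (by norm_num))
  set h : ℝ → ℝ := fun t => f (Function.update z i t) i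
  have hin : ∀ t ∈ Ioo (0 : ℝ) 1, extC f i (Function.update y i t) = h t := fun t ht => by
    rw [extC_of_mem ((update_mem_dom hy t).2 ht), compl2_update]
  have hout : ∀ t ∉ Ioo (0 : ℝ) 1, extC f i (Function.update y i t) = t := fun t ht => by
    rw [extC_of_notMem (fun hd => ht ((update_mem_dom hy t).1 hd))]
    simp
  have hrange : ∀ t ∈ Ioo (0 : ℝ) 1, h t ∈ Ioo (0 : ℝ) 1 := fun t ht => by
    refine mem_cube.1 (hf.maps _ (mem_cube.2 fun j => ?_)) i
    by_cases hj : j = i
    · subst hj; simpa using ht
    · rw [Function.update_of_ne hj]; exact mem_cube.1 hz j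
  have hmono : Monotone (fun t => extC f i (Function.update y i t)) := by
    intro s t hst
    simp only
    by_cases hs : s ∈ Ioo (0 : ℝ) 1 <;> by_cases ht : t ∈ Ioo (0 : ℝ) 1
    · rw [hin s hs, hin t ht]; exact (hf.mono z hz i).monotoneOn hs ht hst
    · rw [hin s hs, hout t ht]
      simp only [mem_Ioo, not_and_or, not_lt] at ht
      have := hrange s hs
      rcases ht with h' | h' <;> linarith [hs.1, this.2]
    · rw [hout s hs, hin t ht]
      simp only [mem_Ioo, not_and_or, not_lt] at hs
      have := hrange t ht
      rcases hs with h' | h' <;> linarith [ht.2, this.1]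
    · rw [hout s hs, hout t ht]; exact hst
  refine ⟨hmono, hmono.continuous_of_surjective fun s => ?_⟩
  by_cases hs : s ∈ Ioo (0 : ℝ) 1
  · obtain ⟨t, ht, hts⟩ := hf.onto z hz i hs
    exact ⟨t, (hin t ht).trans hts⟩
  · exact ⟨s, hout s hs⟩

omit hf in
theorem deriv_smoothTransition_eq_zero {t : ℝ} (ht : t ∉ Icc (0 : ℝ) 1) :
    deriv Real.smoothTransition t = 0 := by
  simp only [mem_Icc, not_and_or, not_le] at ht
  rcases ht with h | h
  · rw [Filter.EventuallyEq.deriv_eq (f := fun _ => (0 : ℝ)), deriv_const]
    filter_upwards [eventually_lt_nhds h] with s hs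
    exact Real.smoothTransition.zero_of_nonpos hs.le
  · rw [Filter.EventuallyEq.deriv_eq (f := fun _ => (1 : ℝ)), deriv_const]
    filter_upwards [eventually_gt_nhds h] with s hs
    exact Real.smoothTransition.one_of_one_le hs.le

omit hf in
theorem continuous_deriv_smoothTransition : Continuous (deriv Real.smoothTransition) :=
  (Real.smoothTransition.contDiff (n := 1)).continuous_deriv le_rfl

/-- The layer at a face does not contribute. -/
theorem tendsto_layer {φ : Sp n → ℝ} (hφ : Continuous φ) (hφc : HasCompactSupport φ)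
    (hφs : tsupport φ ⊆ slab i) {c σ : ℝ} (hc : c = 0 ∧ σ = 1 ∨ c = 1 ∧ σ = -1) :
    Tendsto (fun k : ℕ => ∫ y, (extC f i y - y i) * φ y *
      (((k : ℝ) + 4) * deriv Real.smoothTransition (σ * ((k : ℝ) + 4) * (y i - c) - 1)))
      atTop (𝓝 0) := by
  set θ := deriv Real.smoothTransition
  set u : Sp n → ℝ := fun y => extC f i y - y i
  obtain ⟨C, hC⟩ := hφ.bounded_above_of_compact_support hφc
  obtain ⟨D, hD⟩ := continuous_deriv_smoothTransition.bounded_above_of_compact_support
    (HasCompactSupport.intro isCompact_Icc fun t ht => deriv_smoothTransition_eq_zero ht)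
  have hσ : σ * σ = 1 ∧ σ ≠ 0 ∧ c ∉ Ioo (0 : ℝ) 1 := by
    rcases hc with ⟨rfl, rfl⟩ | ⟨rfl, rfl⟩ <;> simp
  set a : ℕ → Sp n := fun k j => if j = i then σ / ((k : ℝ) + 4) else 1
  set b : ℕ → Sp n := fun k j => if j = i then c + σ / ((k : ℝ) + 4) else 0
  have ha : ∀ k j, a k j ≠ 0 := fun k j => by
    simp only [a]
    split_ifs
    · exact div_ne_zero hσ.2.1 (by positivity)
    · exact one_ne_zero
  set F : ℕ → Sp n → ℝ := fun k z => u (aff (a k) (b k) z) * φ (aff (a k) (b k) z) * θ (z i)
  have hum : Measurable u := (measurable_extC hf).sub (measurable_pi_apply i)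
  have hkey : ∀ k : ℕ, ∫ y, u y * φ y * (((k : ℝ) + 4) * θ (σ * ((k : ℝ) + 4) * (y i - c) - 1)) =
      ∫ z, F k z := by
    intro k
    have hk : (0 : ℝ) < (k : ℝ) + 4 := by positivity
    set Φ : Sp n → ℝ := fun y => u y * φ y * θ (σ * ((k : ℝ) + 4) * (y i - c) - 1)
    have hΦ : Measurable Φ := (hum.mul hφ.measurable).mul
      (continuous_deriv_smoothTransition.measurable.comp
        (by fun_prop : Measurable fun y : Sp n => σ * ((k : ℝ) + 4) * (y i - c) - 1))
    have hF : F k = fun z => Φ (aff (a k) (b k) z) := by
      funext z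
      simp only [F, Φ]
      congr 2
      simp only [aff, a, b, if_pos]
      field_simp
      linear_combination (-(z i) - 1) * hσ.1
    have hprod : |∏ j, a k j|⁻¹ = (k : ℝ) + 4 := by
      have : ∏ j, a k j = σ / ((k : ℝ) + 4) := by
        simp only [a]
        rw [Finset.prod_ite_eq']
        simp
      rw [this, abs_div, abs_of_pos hk]
      rcases hc with ⟨-, rfl⟩ | ⟨-, rfl⟩ <;> simp
    rw [hF, integral_comp_aff (b k) (ha k) hΦ.aestronglyMeasurable, hprod, ← integral_const_mul]
    refine integral_congr_ae (ae_of_all _ fun y => ?_)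
    simp only [Φ]
    ring
  simp only [u] at hkey
  refine (tendsto_congr hkey).2 ?_
  rw [← integral_zero (Sp n) ℝ (μ := volume)]
  have hzero : ∀ k z, z ∉ Set.univ.pi (fun _ : Fin n => Icc (0 : ℝ) 1) → F k z = 0 := by
    intro k z hz
    simp only [mem_univ_pi, not_forall] at hz
    obtain ⟨j, hj⟩ := hz
    by_cases hji : j = i
    · subst hji; simp only [F, θ, deriv_smoothTransition_eq_zero hj, mul_zero]
    · have h0 : φ (aff (a k) (b k) z) = 0 := image_eq_zero_of_notMem_tsupport fun hm => hj (by
        have h := hφs hm j hji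
        simp only [aff, a, b, if_neg hji, one_mul, add_zero] at h
        exact Ioo_subset_Icc_self h)
      simp only [F, h0, mul_zero, zero_mul]
  refine tendsto_integral_of_dominated_convergence
    ((Set.univ.pi fun _ : Fin n => Icc (0 : ℝ) 1).indicator fun _ => C * D) (fun k => ?_) ?_
    (fun k => ae_of_all _ fun z => ?_) (ae_of_all _ fun z => ?_)
  · exact (((hum.comp (continuous_aff _ _).measurable).mul
      (hφ.measurable.comp (continuous_aff _ _).measurable)).mul
      (continuous_deriv_smoothTransition.measurable.comp (measurable_pi_apply i))).aestronglyMeasurable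
  · exact (integrable_indicator_iff (isCompact_univ_pi fun _ => isCompact_Icc).measurableSet).2
      (integrableOn_const ((isCompact_univ_pi fun _ => isCompact_Icc).measure_lt_top.ne))
  · by_cases hz : z ∈ Set.univ.pi (fun _ : Fin n => Icc (0 : ℝ) 1)
    · rw [indicator_of_mem hz, Real.norm_eq_abs, abs_mul, abs_mul]
      have h1 : |u (aff (a k) (b k) z)| ≤ 1 := abs_extC_sub_le hf _
      have h2 := hC (aff (a k) (b k) z)
      have h3 := hD (z i)
      rw [Real.norm_eq_abs] at h2 h3
      calc _ ≤ 1 * C * D :=
            mul_le_mul (mul_le_mul h1 h2 (abs_nonneg _) zero_le_one) h3 (abs_nonneg _)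
              (by linarith [abs_nonneg (φ (aff (a k) (b k) z))])
        _ = _ := by ring
    · rw [hzero k z hz, norm_zero, indicator_of_notMem hz]
  · -- the point slides to the face, where the component agrees with the coordinate
    have hline : ∀ k, aff (a k) (b k) z =
        Function.update z i (c + σ / ((k : ℝ) + 4) * (z i + 1)) := fun k => funext fun j => by
      by_cases hji : j = i
      · subst hji; simp [aff, a, b]; ring
      · simp [aff, a, b, hji, Function.update_of_ne hji]
    have ht : Tendsto (fun k : ℕ => c + σ / ((k : ℝ) + 4) * (z i + 1)) atTop (𝓝 c) := by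
      have h : Tendsto (fun k : ℕ => σ / ((k : ℝ) + 4)) atTop (𝓝 0) :=
        tendsto_const_nhds.div_atTop (tendsto_natCast_atTop_atTop.atTop_add tendsto_const_nhds)
      simpa using (h.mul_const (z i + 1)).const_add c
    have hu : Tendsto (fun k => u (aff (a k) (b k) z)) atTop (𝓝 0) := by
      have h := (((extC_line (i := i) hf z).2.tendsto c).comp ht).sub ht
      rw [extC_of_outside (by simpa using hσ.2.2)] at h
      simpa [u, hline, Function.comp_def] using h
    refine squeeze_zero_norm (fun k => ?_)
      (show Tendsto (fun k => |u (aff (a k) (b k) z)| * (C * D)) atTop (𝓝 0) by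
        simpa using hu.abs.mul_const (C * D))
    rw [Real.norm_eq_abs, abs_mul, abs_mul, mul_assoc]
    refine mul_le_mul_of_nonneg_left (mul_le_mul ?_ ?_ (abs_nonneg _) ?_) (abs_nonneg _)
    · simpa [Real.norm_eq_abs] using hC (aff (a k) (b k) z)
    · simpa [Real.norm_eq_abs] using hD (z i)
    · exact (norm_nonneg _).trans (hC z)

end Vale.Agent.P073
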