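import Mathlib

/-!
P073, triangular class: diagonal changes of variable and mollifications composed with them converge
in the mean of order `p` on the unit cube.
-/

namespace Vale.Agent.P073

open MeasureTheory Filter Topology Set
open scoped Convolution ContDiff

/-- Euclidean space as tuples. -/
abbrev Sp (n : ℕ) : Type := Fin n → ℝ

/-- The open unit cube. -/
def cube (n : ℕ) : Set (Sp n) := Set.univ.pi fun _ => Set.Ioo 0 1

theorem mem_cube {n : ℕ} {x : Sp n} : x ∈ cube n ↔ ∀ j, x j ∈ Set.Ioo (0 : ℝ) 1 := by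
  simp only [cube, Set.mem_univ_pi]

theorem isOpen_cube (n : ℕ) : IsOpen (cube n) :=
  isOpen_set_pi Set.finite_univ fun _ _ => isOpen_Ioo

theorem measurableSet_cube (n : ℕ) : MeasurableSet (cube n) := (isOpen_cube n).measurableSet

instance isFiniteMeasure_cube (n : ℕ) : IsFiniteMeasure (volume.restrict (cube n)) := by
  refine ⟨?_⟩
  rw [Measure.restrict_apply_univ, cube, volume_pi_pi]
  simp

variable {n : ℕ}

/-- A diagonal affine map. -/
def aff (a b : Sp n) (x : Sp n) : Sp n := fun j => a j * x j + b j

theorem continuous_aff (a b : Sp n) : Continuous (aff a b) :=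
  continuous_pi fun j => by unfold aff; fun_prop

theorem contDiff_aff (a b : Sp n) : ContDiff ℝ ∞ (aff a b) :=
  contDiff_pi.2 fun j => by unfold aff; fun_prop

theorem map_aff {a : Sp n} (b : Sp n) (ha : ∀ j, a j ≠ 0) :
    Measure.map (aff a b) volume = ENNReal.ofReal |∏ j, a j|⁻¹ • volume := by
  have hdet : Matrix.det (Matrix.diagonal a) ≠ 0 := by
    rw [Matrix.det_diagonal]
    exact Finset.prod_ne_zero_iff.2 fun j _ => ha j
  have hlin : (LinearMap.det (Matrix.toLin' (Matrix.diagonal a))) ≠ 0 := by
    rwa [LinearMap.det_toLin']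
  have h := Real.map_linearMap_volume_pi_eq_smul_volume_pi hlin
  rw [LinearMap.det_toLin', Matrix.det_diagonal] at h
  have e : aff a b = (fun y : Sp n => y + b) ∘ (Matrix.toLin' (Matrix.diagonal a)) := by
    ext x j
    simp [aff, Matrix.mulVec_diagonal]
  have hm : Measurable (Matrix.toLin' (Matrix.diagonal a)) :=
    (LinearMap.continuous_on_pi _).measurable
  rw [e, ← Measure.map_map (measurable_add_const b) hm, h, Measure.map_smul,
    (measurePreserving_add_right (volume : Measure (Sp n)) b).map_eq, abs_inv]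

theorem integrable_comp_aff {a : Sp n} (b : Sp n) (ha : ∀ j, a j ≠ 0) {F : Sp n → ℝ}
    (hF : Integrable F volume) : Integrable (fun x => F (aff a b x)) volume := by
  have h : Integrable F (Measure.map (aff a b) volume) := by
    rw [map_aff b ha]; exact hF.smul_measure ENNReal.ofReal_ne_top
  exact h.comp_measurable (continuous_aff a b).measurable

theorem integral_comp_aff {a : Sp n} (b : Sp n) (ha : ∀ j, a j ≠ 0) {F : Sp n → ℝ}
    (hF : AEStronglyMeasurable F volume) :
    ∫ x, F (aff a b x) = |∏ j, a j|⁻¹ * ∫ x, F x := by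
  have hF' : AEStronglyMeasurable F (Measure.map (aff a b) volume) := by
    rw [map_aff b ha]; exact hF.smul_measure _
  rw [← integral_map (continuous_aff a b).measurable.aemeasurable hF', map_aff b ha,
    integral_smul_measure, ENNReal.toReal_ofReal (by positivity), smul_eq_mul]

/-- The mollifier of radius `ε`. -/
noncomputable def moll (ε : ℝ) (hε : 0 < ε) : Sp n → ℝ :=
  (⟨ε / 2, ε, half_pos hε, half_lt_self hε⟩ : ContDiffBump (0 : Sp n)).normed volume

section Moll

variable {ε : ℝ} {hε : 0 < ε}

theorem contDiff_moll : ContDiff ℝ ∞ (moll (n := n) ε hε) := ContDiffBump.contDiff_normed _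

theorem moll_nonneg (x : Sp n) : 0 ≤ moll ε hε x := ContDiffBump.nonneg_normed _ x

theorem moll_neg (x : Sp n) : moll ε hε (-x) = moll ε hε x := ContDiffBump.normed_neg _ x

theorem integral_moll : ∫ x, moll (n := n) ε hε x = 1 := ContDiffBump.integral_normed _

theorem tsupport_moll : tsupport (moll (n := n) ε hε) = Metric.closedBall 0 ε :=
  ContDiffBump.tsupport_normed_eq _

theorem hasCompactSupport_moll : HasCompactSupport (moll (n := n) ε hε) :=
  ContDiffBump.hasCompactSupport_normed _

theorem moll_eq_zero {x : Sp n} (h : ε < ‖x‖) : moll ε hε x = 0 :=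
  image_eq_zero_of_notMem_tsupport (by
    rw [tsupport_moll, Metric.mem_closedBall, dist_zero_right]
    exact not_le.2 h)

theorem integrable_moll : Integrable (moll (n := n) ε hε) volume :=
  contDiff_moll.continuous.integrable_of_hasCompactSupport hasCompactSupport_moll

end Moll

/-- Mollification. -/
noncomputable def mol (ε : ℝ) (hε : 0 < ε) (u : Sp n → ℝ) (z : Sp n) : ℝ :=
  ∫ t, u t * moll ε hε (z - t)

theorem mol_eq (ε : ℝ) (hε : 0 < ε) (u : Sp n → ℝ) :
    mol ε hε u = u ⋆[ContinuousLinearMap.mul ℝ ℝ, volume] moll ε hε := rfl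

variable {ε : ℝ} {hε : 0 < ε}

theorem mol_integrable {u : Sp n → ℝ} (hu : LocallyIntegrable u volume) (z : Sp n) :
    Integrable (fun t => u t * moll ε hε (z - t)) volume :=
  hasCompactSupport_moll.convolutionExists_right (ContinuousLinearMap.mul ℝ ℝ) hu
    contDiff_moll.continuous z

theorem mol_sub {u v : Sp n → ℝ} (hu : LocallyIntegrable u volume) (hv : LocallyIntegrable v volume)
    (z : Sp n) : mol ε hε (fun t => u t - v t) z = mol ε hε u z - mol ε hε v z := by
  simp only [mol, sub_mul]
  exact integral_sub (mol_integrable hu z) (mol_integrable hv z)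

theorem mol_mono {u v : Sp n → ℝ} (hu : LocallyIntegrable u volume) (hv : LocallyIntegrable v volume)
    (h : ∀ t, u t ≤ v t) (z : Sp n) : mol ε hε u z ≤ mol ε hε v z :=
  integral_mono (mol_integrable hu z) (mol_integrable hv z) fun t =>
    mul_le_mul_of_nonneg_right (h t) (moll_nonneg _)

/-- Mollification sees only the values nearby. -/
theorem mol_congr {u v : Sp n → ℝ} {z : Sp n} (h : ∀ t, ‖z - t‖ ≤ ε → u t = v t) :
    mol ε hε u z = mol ε hε v z := by
  refine integral_congr_ae (ae_of_all _ fun t => ?_)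
  show u t * moll ε hε (z - t) = v t * moll ε hε (z - t)
  by_cases ht : ε < ‖z - t‖
  · rw [moll_eq_zero ht, mul_zero, mul_zero]
  · rw [h t (not_lt.1 ht)]

theorem mol_eq_shift (u : Sp n → ℝ) (z : Sp n) :
    mol ε hε u z = ∫ t, u (z - t) * moll ε hε t := by
  rw [mol, ← integral_sub_left_eq_self (fun t => u t * moll ε hε (z - t)) volume z]
  simp only [sub_sub_cancel]

/-- Mollification fixes the coordinates. -/
theorem mol_coord (i : Fin n) (z : Sp n) : mol ε hε (fun t => t i) z = z i := by
  rw [mol_eq_shift]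
  have h1 : Integrable (fun t : Sp n => t i * moll ε hε t) volume :=
    ((continuous_apply i).mul contDiff_moll.continuous).integrable_of_hasCompactSupport
      (hasCompactSupport_moll.mul_left)
  have h0 : ∫ t : Sp n, t i * moll ε hε t = 0 := by
    have h := integral_neg_eq_self (fun t : Sp n => t i * moll ε hε t) volume
    simp only [moll_neg, Pi.neg_apply, neg_mul, integral_neg] at h
    linarith
  simp only [Pi.sub_apply, sub_mul]
  rw [integral_sub (integrable_moll.const_mul _) h1, h0, integral_const_mul, integral_moll]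
  simp

/-- The derivative of a mollification. -/
theorem hasFDerivAt_mol {u : Sp n → ℝ} (hu : LocallyIntegrable u volume) (z : Sp n) :
    ∃ L : Sp n →L[ℝ] ℝ, HasFDerivAt (mol ε hε u) L z ∧
      ∀ v, L v = ∫ t, u t * fderiv ℝ (moll ε hε) (z - t) v := by
  have h1 : ContDiff ℝ 1 (moll (n := n) ε hε) := contDiff_moll.of_le (by exact_mod_cast le_top)
  refine ⟨_, hasCompactSupport_moll.hasFDerivAt_convolution_right (ContinuousLinearMap.mul ℝ ℝ) hu h1 z,
    fun v => ?_⟩
  rw [convolution_precompR_apply _ hu (hasCompactSupport_moll.fderiv (𝕜 := ℝ))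
    (h1.continuous_fderiv one_ne_zero)]
  rfl

theorem contDiff_mol {u : Sp n → ℝ} (hu : LocallyIntegrable u volume) :
    ContDiff ℝ ∞ (mol ε hε u) :=
  hasCompactSupport_moll.contDiff_convolution_right (ContinuousLinearMap.mul ℝ ℝ) hu contDiff_moll

theorem rpow_abs_add_le {p : ℝ} (hp : 0 ≤ p) (x y z : ℝ) :
    |x + y + z| ^ p ≤ 3 ^ p * (|x| ^ p + |y| ^ p + |z| ^ p) := by
  set M := max |x| (max |y| |z|)
  have h1 : |x + y + z| ≤ 3 * M := (abs_add_three x y z).trans (by
    linarith [le_max_left |x| (max |y| |z|), (le_max_left |y| |z|).trans (le_max_right |x| _),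
      (le_max_right |y| |z|).trans (le_max_right |x| _)])
  refine (Real.rpow_le_rpow (abs_nonneg _) h1 hp).trans ?_
  have hM : 0 ≤ M := (abs_nonneg x).trans (le_max_left _ _)
  rw [Real.mul_rpow (by norm_num) hM]
  refine mul_le_mul_of_nonneg_left ?_ (by positivity)
  have hx := Real.rpow_nonneg (abs_nonneg x) p
  have hy := Real.rpow_nonneg (abs_nonneg y) p
  have hz := Real.rpow_nonneg (abs_nonneg z) p
  rcases max_choice |x| (max |y| |z|) with h | h
  · simp only [M, h]; linarith
  · rcases max_choice |y| |z| with h' | h' <;> simp only [M, h, h'] <;> linarith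

theorem rpow_abs_mol_le {p : ℝ} (hp : 1 ≤ p) {u : Sp n → ℝ} (hu : LocallyIntegrable u volume)
    (hum : AEStronglyMeasurable u volume) (hup : LocallyIntegrable (fun t => |u t| ^ p) volume)
    (z : Sp n) : |mol ε hε u z| ^ p ≤ mol ε hε (fun t => |u t| ^ p) z := by
  set m : Sp n → ℝ := fun t => moll ε hε (z - t)
  have hm0 : ∀ t, 0 ≤ m t := fun t => moll_nonneg _
  have hmi : Integrable m volume := integrable_moll.comp_sub_left z
  have hm1 : ∫ t, m t = 1 := by
    simp only [m]
    rw [integral_sub_left_eq_self (moll (n := n) ε hε) volume z, integral_moll]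
  set ρ : Measure (Sp n) := volume.withDensity fun t => ((m t).toNNReal : ENNReal)
  have hmm : Measurable fun t => (m t).toNNReal :=
    ((contDiff_moll.continuous.comp (continuous_const.sub continuous_id)).measurable).real_toNNReal
  have hsm : ∀ t r : ℝ, (0 : ℝ) ≤ t → t.toNNReal • r = t * r := fun t r ht => by
    rw [NNReal.smul_def, Real.coe_toNNReal t ht, smul_eq_mul]
  have hρ : IsProbabilityMeasure ρ := by
    refine ⟨?_⟩
    rw [withDensity_apply _ MeasurableSet.univ, Measure.restrict_univ]
    change ∫⁻ t, ENNReal.ofReal (m t) = 1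
    rw [← ofReal_integral_eq_lintegral_ofReal hmi (ae_of_all _ hm0), hm1, ENNReal.ofReal_one]
  have i1 : Integrable (fun t => |u t|) ρ := by
    rw [integrable_withDensity_iff_integrable_smul hmm]
    refine (mol_integrable (ε := ε) (hε := hε) hu z).abs.congr (ae_of_all _ fun t => ?_)
    show |u t * m t| = (m t).toNNReal • |u t|
    rw [hsm _ _ (hm0 t), abs_mul, abs_of_nonneg (hm0 t), mul_comm]
  have i2 : Integrable (fun t => |u t| ^ p) ρ := by
    rw [integrable_withDensity_iff_integrable_smul hmm]
    refine (mol_integrable (ε := ε) (hε := hε) hup z).congr (ae_of_all _ fun t => ?_)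
    show |u t| ^ p * m t = (m t).toNNReal • |u t| ^ p
    rw [hsm _ _ (hm0 t), mul_comm]
  have hJ := (convexOn_rpow hp).map_integral_le (μ := ρ) (f := fun t => |u t|)
    (Real.continuous_rpow_const (by linarith)).continuousOn isClosed_Ici
    (ae_of_all _ fun t => abs_nonneg (u t)) i1 i2
  rw [integral_withDensity_eq_integral_smul hmm, integral_withDensity_eq_integral_smul hmm] at hJ
  have e1 : |mol ε hε u z| ≤ ∫ t, (m t).toNNReal • |u t| := by
    refine abs_integral_le_integral_abs.trans_eq (integral_congr_ae (ae_of_all _ fun t => ?_))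
    show |u t * m t| = (m t).toNNReal • |u t|
    rw [hsm _ _ (hm0 t), abs_mul, abs_of_nonneg (hm0 t), mul_comm]
  refine (Real.rpow_le_rpow (abs_nonneg _) e1 (by linarith)).trans (hJ.trans_eq ?_)
  refine integral_congr_ae (ae_of_all _ fun t => ?_)
  show (m t).toNNReal • |u t| ^ p = |u t| ^ p * m t
  rw [hsm _ _ (hm0 t), mul_comm]

/-- Mollifications composed with diagonal maps tending to the identity converge in the mean of
order `p` on the cube. -/
theorem tendsto_mol {p : ℝ} (hp : 1 ≤ p) {u : Sp n → ℝ} (hu : MemLp u (ENNReal.ofReal p) volume)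
    {e : ℕ → ℝ} (he : ∀ k, 0 < e k) (he0 : Tendsto e atTop (𝓝 0)) {a b : ℕ → Sp n}
    (ha : Tendsto a atTop (𝓝 fun _ => 1)) (hb : Tendsto b atTop (𝓝 0)) :
    Tendsto (fun k => ∫ x in cube n, |mol (e k) (he k) u (aff (a k) (b k) x) - u x| ^ p) atTop (𝓝 0) := by
  have hp0 : 0 < p := lt_of_lt_of_le one_pos hp
  have hp1 : (1 : ENNReal) ≤ ENNReal.ofReal p := ENNReal.one_le_ofReal.2 hp
  refine Metric.tendsto_nhds.2 fun η hη => ?_
  set κ : ℝ := η / (8 * 3 ^ p)
  have hκ : 0 < κ := by positivity
  obtain ⟨w, hwc, hwi, hw, hwp⟩ := hu.exists_hasCompactSupport_integral_rpow_sub_le hp0 hκ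
  simp only [Real.norm_eq_abs] at hwi
  set d : Sp n → ℝ := fun t => u t - w t
  have hdp : MemLp d (ENNReal.ofReal p) volume := hu.sub hwp
  have hd : LocallyIntegrable d volume := hdp.locallyIntegrable hp1
  have hdi : Integrable (fun t => |d t| ^ p) volume := by
    have := hdp.integrable_norm_rpow (ENNReal.ofReal_pos.2 hp0).ne' ENNReal.ofReal_ne_top
    rw [ENNReal.toReal_ofReal hp0.le] at this
    simpa only [Real.norm_eq_abs] using this
  have hwu : UniformContinuous w := hw.uniformContinuous_of_tendsto_cocompact hwc.is_zero_at_infty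
  set V : ℝ := volume.real (cube n)
  have hV : 0 ≤ V := measureReal_nonneg
  set β : ℝ := min 1 (κ / (V + 1))
  have hβ : 0 < β := lt_min one_pos (by positivity)
  have hβV : β ^ p * V ≤ κ := by
    have h1 : β ^ p ≤ β := by
      simpa using Real.rpow_le_rpow_of_exponent_ge hβ (min_le_left _ _) hp
    have h2 : β * (V + 1) ≤ κ := (le_div_iff₀ (by positivity)).1 (min_le_right _ _)
    have h3 := mul_le_mul_of_nonneg_right h1 hV
    linarith
  obtain ⟨δ, hδ, hwδ⟩ := Metric.uniformContinuous_iff.1 hwu β hβ
  have hprod : Tendsto (fun k => ∏ j, a k j) atTop (𝓝 (∏ _j : Fin n, (1 : ℝ))) :=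
    tendsto_finsetProd _ fun j _ => tendsto_pi_nhds.1 ha j
  rw [Finset.prod_const_one] at hprod
  have hne : ∀ᶠ k in atTop, ∀ j, a k j ≠ 0 :=
    eventually_all.2 fun j => (tendsto_pi_nhds.1 ha j).eventually_ne one_ne_zero
  have hsmall : ∀ᶠ k in atTop, ‖a k - fun _ => 1‖ + ‖b k‖ + e k < δ := by
    have h := ((tendsto_iff_norm_sub_tendsto_zero.1 ha).add
      (tendsto_zero_iff_norm_tendsto_zero.1 hb)).add he0
    rw [add_zero, add_zero] at h
    exact h.eventually (eventually_lt_nhds hδ)
  filter_upwards [hne, hsmall, hprod.eventually (eventually_ge_nhds (show (1 / 2 : ℝ) < 1 by norm_num))]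
    with k hk hks hkp
  have hinv : |∏ j, a k j|⁻¹ ≤ 2 := by
    rw [abs_of_pos (lt_of_lt_of_le (by norm_num) hkp)]
    exact inv_le_of_inv_le₀ (by norm_num) (by linarith)
  set A := aff (a k) (b k)
  set M : Sp n → ℝ := mol (e k) (he k) fun t => |d t| ^ p
  have hMi : Integrable M volume :=
    hdi.integrable_convolution (ContinuousLinearMap.mul ℝ ℝ) integrable_moll
  have hMint : ∫ z, M z = ∫ t, |d t| ^ p := by
    show ∫ z, ((fun t => |d t| ^ p) ⋆[ContinuousLinearMap.mul ℝ ℝ, volume] moll (e k) (he k)) z = _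
    rw [integral_convolution (ContinuousLinearMap.mul ℝ ℝ) hdi integrable_moll, integral_moll,
      ContinuousLinearMap.mul_apply', mul_one]
  have hM0 : ∀ z, 0 ≤ M z := fun z =>
    integral_nonneg fun t => mul_nonneg (Real.rpow_nonneg (abs_nonneg _) _) (moll_nonneg _)
  have hwe : ∀ x ∈ cube n, |mol (e k) (he k) w (A x) - w x| ≤ β := by
    intro x hx
    have hwl := hw.locallyIntegrable (μ := (volume : Measure (Sp n)))
    have hcl := (continuous_const (y := w x)).locallyIntegrable (μ := (volume : Measure (Sp n)))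
    have h1 : mol (e k) (he k) w (A x) - w x = mol (e k) (he k) (fun t => w t - w x) (A x) := by
      rw [mol_sub hwl hcl]
      congr 1
      rw [mol, integral_const_mul, integral_sub_left_eq_self (moll (n := n) (e k) (he k)) volume,
        integral_moll, mul_one]
    have h2 : ∀ t, ‖A x - t‖ ≤ e k → |w t - w x| ≤ β := fun t ht => by
      refine le_of_lt (hwδ ?_)
      have hAx : ‖A x - x‖ ≤ ‖a k - fun _ => 1‖ + ‖b k‖ := by
        refine (pi_norm_le_iff_of_nonneg (by positivity)).2 fun j => ?_
        have hxj := mem_cube.1 hx j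
        have e1 : A x j - x j = (a k j - 1) * x j + b k j := by simp only [A, aff]; ring
        rw [Pi.sub_apply, e1, Real.norm_eq_abs]
        refine (abs_add_le _ _).trans (add_le_add ?_ (norm_le_pi_norm (b k) j))
        rw [abs_mul, abs_of_pos hxj.1]
        refine (mul_le_of_le_one_right (abs_nonneg _) hxj.2.le).trans ?_
        exact norm_le_pi_norm (a k - fun _ => (1 : ℝ)) j
      rw [dist_eq_norm]
      have h3 := norm_sub_le_norm_sub_add_norm_sub t (A x) x
      rw [norm_sub_rev t (A x)] at h3
      linarith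
    rw [h1]
    refine abs_integral_le_integral_abs.trans ?_
    calc ∫ t, |(w t - w x) * moll (e k) (he k) (A x - t)|
        ≤ ∫ t, β * moll (e k) (he k) (A x - t) := by
          refine integral_mono (mol_integrable (hwl.sub hcl) _).abs
            ((integrable_moll.comp_sub_left (A x)).const_mul β) fun t => ?_
          show |(w t - w x) * moll (e k) (he k) (A x - t)| ≤ β * moll (e k) (he k) (A x - t)
          by_cases ht : e k < ‖A x - t‖
          · rw [moll_eq_zero ht, mul_zero, abs_zero, mul_zero]
          · rw [abs_mul, abs_of_nonneg (moll_nonneg _)]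
            exact mul_le_mul_of_nonneg_right (h2 t (not_lt.1 ht)) (moll_nonneg _)
      _ = β := by
          rw [integral_const_mul, integral_sub_left_eq_self (moll (n := n) (e k) (he k)) volume,
            integral_moll, mul_one]
  have hpt : ∀ x ∈ cube n, |mol (e k) (he k) u (A x) - u x| ^ p ≤
      3 ^ p * (M (A x) + β ^ p + |d x| ^ p) := by
    intro x hx
    have h1 : mol (e k) (he k) u (A x) - u x =
        mol (e k) (he k) d (A x) + (mol (e k) (he k) w (A x) - w x) + -(d x) := by
      rw [show mol (e k) (he k) d (A x) = mol (e k) (he k) u (A x) - mol (e k) (he k) w (A x) from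
        mol_sub (hu.locallyIntegrable hp1) (hwp.locallyIntegrable hp1) _]
      simp only [d]
      ring
    rw [h1]
    refine (rpow_abs_add_le hp0.le _ _ _).trans (mul_le_mul_of_nonneg_left ?_ (by positivity))
    rw [abs_neg]
    exact add_le_add (add_le_add (rpow_abs_mol_le hp hd hdp.aestronglyMeasurable hdi.locallyIntegrable _)
      (Real.rpow_le_rpow (abs_nonneg _) (hwe x hx) hp0.le)) le_rfl
  rw [Real.dist_eq, sub_zero, abs_of_nonneg (integral_nonneg fun x => Real.rpow_nonneg (abs_nonneg _) _)]
  have hA : Integrable (fun x => M (A x)) volume := integrable_comp_aff _ hk hMi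
  have hi1 : IntegrableOn (fun x => M (A x) + β ^ p) (cube n) volume :=
    hA.integrableOn.add (integrable_const _)
  have hint : IntegrableOn (fun x => 3 ^ p * (M (A x) + β ^ p + |d x| ^ p)) (cube n) volume :=
    (hi1.add hdi.integrableOn).const_mul _
  have hle := integral_mono_of_nonneg (μ := volume.restrict (cube n))
    (ae_of_all _ fun x => Real.rpow_nonneg (abs_nonneg (mol (e k) (he k) u (A x) - u x)) p) hint
    ((ae_restrict_mem (measurableSet_cube n)).mono hpt)
  refine lt_of_le_of_lt hle ?_
  rw [integral_const_mul, integral_add hi1 hdi.integrableOn,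
    integral_add hA.integrableOn (integrable_const _), setIntegral_const, smul_eq_mul]
  have b1 : ∫ x in cube n, M (A x) ≤ 2 * κ := by
    refine (setIntegral_le_integral hA (ae_of_all _ fun x => hM0 _)).trans ?_
    rw [integral_comp_aff _ hk hMi.aestronglyMeasurable, hMint]
    exact mul_le_mul hinv hwi (integral_nonneg fun t => Real.rpow_nonneg (abs_nonneg _) _) (by norm_num)
  have b2 : ∫ x in cube n, |d x| ^ p ≤ κ :=
    (setIntegral_le_integral hdi (ae_of_all _ fun x => Real.rpow_nonneg (abs_nonneg _) _)).trans hwi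
  have b3 : (3 : ℝ) ^ p * (4 * κ) < η := by
    simp only [κ]
    rw [show (3 : ℝ) ^ p * (4 * (η / (8 * 3 ^ p))) = η / 2 by field_simp; ring]
    linarith
  have h3p : (0 : ℝ) < 3 ^ p := by positivity
  refine lt_of_le_of_lt (mul_le_mul_of_nonneg_left ?_ h3p.le) b3
  simp only [V] at hβV
  linarith

end Vale.Agent.P073
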