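import Vale.Agent.P073.Extend

/-!
P073, triangular class: the weak gradient of the continued component in the slab.
-/

namespace Vale.Agent.P073

open MeasureTheory Filter Topology Set
open scoped ContDiff

variable {n : ℕ} {p : ℝ} {f : Sp n → Sp n} {g : Fin n → Fin n → Sp n → ℝ}

theorem integrableOn_grad (hp : 1 ≤ p) (hW : InW p f g) (i j : Fin n) :
    IntegrableOn (g i j) (cube n) volume :=
  (hW.2.1 i j).integrable (ENNReal.one_le_ofReal.2 hp)

theorem measurableSet_dom (i : Fin n) : MeasurableSet (dom i) := (isOpen_dom i).measurableSet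

theorem extG_of_mem {i j : Fin n} {y : Sp n} (h : y ∈ cube n) : extG g i j y = g i j y :=
  @Set.piecewise_eq_of_mem _ _ (cube n) _ _ (Classical.decPred _) _ h

theorem extG_of_notMem {i j : Fin n} {y : Sp n} (h : y ∉ cube n) :
    extG g i j y = if j = i then 1 else 0 :=
  @Set.piecewise_eq_of_notMem _ _ (cube n) _ _ (Classical.decPred _) _ h

theorem extG_sub (i j : Fin n) (y : Sp n) :
    extG g i j y - (if j = i then 1 else 0) =
      (cube n).indicator (fun z => g i j z - if j = i then 1 else 0) y := by
  by_cases h : y ∈ cube n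
  · rw [extG_of_mem h, indicator_of_mem h]
  · rw [extG_of_notMem h, indicator_of_notMem h, sub_self]

theorem integrable_extG_sub (hp : 1 ≤ p) (hW : InW p f g) (i j : Fin n) :
    Integrable (fun y => extG g i j y - if j = i then 1 else 0) volume := by
  have h : Integrable ((cube n).indicator fun z => g i j z - if j = i then 1 else 0) volume :=
    (integrable_indicator_iff (measurableSet_cube n)).2
      ((integrableOn_grad hp hW i j).sub (integrable_const _))
  exact h.congr (ae_of_all _ fun y => (extG_sub i j y).symm)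

theorem locallyIntegrable_extG (hp : 1 ≤ p) (hW : InW p f g) (i j : Fin n) :
    LocallyIntegrable (extG g i j) volume := by
  have h := (integrable_extG_sub hp hW i j).locallyIntegrable.add
    (continuous_const (y := if j = i then (1 : ℝ) else 0)).locallyIntegrable
  refine h.congr ?_
  exact ae_of_all _ fun y => by simp

/-- A coordinate has constant gradient. -/
theorem coord_weakGrad (i j : Fin n) {ψ : Sp n → ℝ} (hψ : ContDiff ℝ ∞ ψ) (hψc : HasCompactSupport ψ) :
    ∫ y : Sp n, y i * fderiv ℝ ψ y (Pi.single j 1) = -((if j = i then 1 else 0) * ∫ y, ψ y) := by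
  have hd : Differentiable ℝ ψ := hψ.differentiable (by simp)
  have hc : Continuous fun y => fderiv ℝ ψ y (Pi.single j 1) :=
    (hψ.continuous_fderiv (by simp)).clm_apply continuous_const
  have e : ∀ y, fderiv ℝ (fun x : Sp n => x i) y (Pi.single j 1) = if j = i then 1 else 0 := fun y => by
    rw [(hasFDerivAt_apply i y).fderiv]
    simp [Pi.single_apply, eq_comm]
  rw [integral_mul_fderiv_eq_neg_fderiv_mul_of_integrable (f := fun x : Sp n => x i)]
  · simp only [e, integral_const_mul]
  · simp only [e]
    exact (hψ.continuous.integrable_of_hasCompactSupport hψc).const_mul _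
  · exact ((continuous_apply i).mul hc).integrable_of_hasCompactSupport
      ((hψc.fderiv_apply (𝕜 := ℝ) (Pi.single j 1)).mul_left)
  · exact ((continuous_apply i).mul hψ.continuous).integrable_of_hasCompactSupport hψc.mul_left
  · exact fun y _ => differentiableAt_apply (𝕜 := ℝ) i y
  · exact fun y _ => hd y

/-- A smooth cutoff of the two faces. -/
noncomputable def cut (k : ℕ) (t : ℝ) : ℝ :=
  Real.smoothTransition (((k : ℝ) + 4) * t - 1) +
    Real.smoothTransition (((k : ℝ) + 4) * (1 - t) - 1) - 1

theorem cut_eq_zero (k : ℕ) {t : ℝ} (ht : t ∉ Icc (1 / ((k : ℝ) + 4)) (1 - 1 / ((k : ℝ) + 4))) :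
    cut k t = 0 := by
  have hk : (0 : ℝ) < (k : ℝ) + 4 := by positivity
  simp only [mem_Icc, not_and_or, not_le] at ht
  rcases ht with h | h
  · rw [lt_div_iff₀ hk] at h
    rw [cut, Real.smoothTransition.zero_of_nonpos (by linarith),
      Real.smoothTransition.one_of_one_le (by linarith [(k.cast_nonneg : (0 : ℝ) ≤ k)])]
    ring
  · rw [sub_lt_comm, lt_div_iff₀ hk] at h
    rw [cut, Real.smoothTransition.zero_of_nonpos (x := ((k : ℝ) + 4) * (1 - t) - 1) (by linarith),
      Real.smoothTransition.one_of_one_le (by linarith [(k.cast_nonneg : (0 : ℝ) ≤ k)])]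
    ring

theorem abs_cut_le (k : ℕ) (t : ℝ) : |cut k t| ≤ 1 := by
  have h1 := Real.smoothTransition.nonneg (((k : ℝ) + 4) * t - 1)
  have h2 := Real.smoothTransition.le_one (((k : ℝ) + 4) * t - 1)
  have h3 := Real.smoothTransition.nonneg (((k : ℝ) + 4) * (1 - t) - 1)
  have h4 := Real.smoothTransition.le_one (((k : ℝ) + 4) * (1 - t) - 1)
  rw [cut, abs_le]
  constructor <;> linarith

theorem tendsto_cut {t : ℝ} (ht : t ∈ Ioo (0 : ℝ) 1) : Tendsto (fun k => cut k t) atTop (𝓝 1) := by
  refine tendsto_const_nhds.congr' ?_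
  filter_upwards [tendsto_natCast_atTop_atTop.eventually (eventually_ge_atTop (max (2 / t) (2 / (1 - t))))]
    with k hk
  simp only [max_le_iff, div_le_iff₀ ht.1, div_le_iff₀ (sub_pos.2 ht.2)] at hk
  rw [cut, Real.smoothTransition.one_of_one_le (by linarith [ht.1]),
    Real.smoothTransition.one_of_one_le (by linarith [ht.2])]
  ring

theorem contDiff_cut (k : ℕ) : ContDiff ℝ ∞ (cut k) := by
  unfold cut
  exact ((Real.smoothTransition.contDiff.comp (by fun_prop)).add
    (Real.smoothTransition.contDiff.comp (by fun_prop))).sub contDiff_const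

theorem hasDerivAt_cut (k : ℕ) (t : ℝ) :
    HasDerivAt (cut k)
      (((k : ℝ) + 4) * deriv Real.smoothTransition (1 * ((k : ℝ) + 4) * (t - 0) - 1) -
        ((k : ℝ) + 4) * deriv Real.smoothTransition (-1 * ((k : ℝ) + 4) * (t - 1) - 1)) t := by
  have hθ : ∀ s, HasDerivAt Real.smoothTransition (deriv Real.smoothTransition s) s := fun s =>
    ((Real.smoothTransition.contDiff (n := 1)).differentiable one_ne_zero s).hasDerivAt
  have h1 := (hθ (((k : ℝ) + 4) * t - 1)).comp t (((hasDerivAt_id t).const_mul ((k : ℝ) + 4)).sub_const 1)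
  have h2 := (hθ (((k : ℝ) + 4) * (1 - t) - 1)).comp t
    ((((hasDerivAt_id t).const_sub 1).const_mul ((k : ℝ) + 4)).sub_const 1)
  have h := (h1.add h2).sub_const 1
  rw [show (1 : ℝ) * ((k : ℝ) + 4) * (t - 0) - 1 = ((k : ℝ) + 4) * t - 1 by ring,
    show (-1 : ℝ) * ((k : ℝ) + 4) * (t - 1) - 1 = ((k : ℝ) + 4) * (1 - t) - 1 by ring]
  refine h.congr_deriv ?_
  ring

/-- The continued component has the continued gradient in the slab. -/
theorem extC_weakGrad (hf : TriangularHomeo f) (hp : 1 ≤ p) (hW : InW p f g) (i : Fin n)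
    {φ : Sp n → ℝ} (hφ : ContDiff ℝ ∞ φ) (hφc : HasCompactSupport φ) (hφs : tsupport φ ⊆ slab i)
    (j : Fin n) :
    ∫ y, extC f i y * fderiv ℝ φ y (Pi.single j 1) = -∫ y, extG g i j y * φ y := by
  set δ : ℝ := if j = i then 1 else 0 with hδdef
  set u : Sp n → ℝ := fun y => extC f i y - y i with hudef
  set G : Sp n → ℝ := fun y => extG g i j y - δ with hGdef
  set dφ : Sp n → ℝ := fun y => fderiv ℝ φ y (Pi.single j 1) with hdφdef
  have hdφ : Continuous dφ := (hφ.continuous_fderiv (by simp)).clm_apply continuous_const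
  have hdφc : HasCompactSupport dφ := hφc.fderiv_apply (𝕜 := ℝ) _
  have hum : Measurable u := (measurable_extC hf).sub (measurable_pi_apply i)
  have hu1 : ∀ y, |u y| ≤ 1 := abs_extC_sub_le hf
  have hu0 : ∀ y : Sp n, y i ∉ Ioo (0 : ℝ) 1 → u y = 0 := fun y hy => by
    simp [u, extC_of_outside hy]
  have hGi : Integrable G volume := integrable_extG_sub hp hW i j
  obtain ⟨C, hC⟩ := hφ.continuous.bounded_above_of_compact_support hφc
  set ψ : ℕ → Sp n → ℝ := fun k y => φ y * cut k (y i)
  -- the identity for the cut test functions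
  have hid : ∀ k, (∫ y, u y * dφ y * cut k (y i)) +
      δ * ((∫ y, u y * φ y * (((k : ℝ) + 4) * deriv Real.smoothTransition
        (1 * ((k : ℝ) + 4) * (y i - 0) - 1))) -
        ∫ y, u y * φ y * (((k : ℝ) + 4) * deriv Real.smoothTransition
          (-1 * ((k : ℝ) + 4) * (y i - 1) - 1))) =
      -∫ y, G y * ψ k y := by
    intro k
    have hcut : ContDiff ℝ ∞ fun y : Sp n => cut k (y i) := (contDiff_cut k).comp (contDiff_apply ℝ ℝ i)
    have hψ : ContDiff ℝ ∞ (ψ k) := hφ.mul hcut
    have hψc : HasCompactSupport (ψ k) := hφc.mul_right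
    have hψs : tsupport (ψ k) ⊆ cube n := by
      intro y hy
      have h1 : y ∈ tsupport φ := closure_mono (Function.support_mul_subset_left _ _) hy
      have h2 : y i ∈ Icc (1 / ((k : ℝ) + 4)) (1 - 1 / ((k : ℝ) + 4)) := by
        have hcl : IsClosed ((fun z : Sp n => z i) ⁻¹' Icc (1 / ((k : ℝ) + 4)) (1 - 1 / ((k : ℝ) + 4))) :=
          isClosed_Icc.preimage (continuous_apply i)
        refine closure_minimal (fun z hz => ?_) hcl hy
        by_contra hzi
        exact hz (by simp [ψ, cut_eq_zero k hzi])
      refine mem_cube.2 fun l => ?_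
      by_cases hl : l = i
      · subst hl
        have : (0 : ℝ) < 1 / ((k : ℝ) + 4) := by positivity
        exact ⟨lt_of_lt_of_le this h2.1, by linarith [h2.2]⟩
      · exact hφs h1 l hl
    set θ1 : Sp n → ℝ := fun y => ((k : ℝ) + 4) * deriv Real.smoothTransition
      (1 * ((k : ℝ) + 4) * (y i - 0) - 1)
    set θ2 : Sp n → ℝ := fun y => ((k : ℝ) + 4) * deriv Real.smoothTransition
      (-1 * ((k : ℝ) + 4) * (y i - 1) - 1)
    have hder : ∀ y, fderiv ℝ (ψ k) y (Pi.single j 1) =
        dφ y * cut k (y i) + δ * (φ y * (θ1 y - θ2 y)) := by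
      intro y
      have h2 : HasFDerivAt (fun z : Sp n => cut k (z i)) ((θ1 y - θ2 y) •
          ContinuousLinearMap.proj (R := ℝ) (φ := fun _ : Fin n => ℝ) i) y := by
        have h0 := hasFDerivAt_apply (𝕜 := ℝ) (F' := fun _ : Fin n => ℝ) i y
        have hc := hasDerivAt_cut k (y i)
        have h3 := HasDerivAt.comp_hasFDerivAt (h₂ := cut k) y hc h0
        exact h3
      have h1 := ((hφ.differentiable (by simp) y).hasFDerivAt).mul h2
      rw [show fderiv ℝ (ψ k) y = _ from h1.fderiv]
      simp only [ContinuousLinearMap.add_apply, ContinuousLinearMap.smul_apply, smul_eq_mul,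
        ContinuousLinearMap.proj_apply, Pi.single_apply, dφ, δ]
      by_cases hji : j = i
      · simp [hji]; ring
      · simp [hji, Ne.symm hji]; ring
    have hD : Continuous fun y => fderiv ℝ (ψ k) y (Pi.single j 1) :=
      (hψ.continuous_fderiv (by simp)).clm_apply continuous_const
    have hDc : HasCompactSupport fun y => fderiv ℝ (ψ k) y (Pi.single j 1) :=
      hψc.fderiv_apply (𝕜 := ℝ) _
    have hw := hW.2.2 i (ψ k) hψ hψc hψs j
    rw [setIntegral_eq_integral_of_forall_compl_eq_zero (fun y hy => by
        rw [fderiv_of_notMem_tsupport ℝ (fun h => hy (hψs h))]; simp),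
      setIntegral_eq_integral_of_forall_compl_eq_zero (fun y hy => by
        rw [image_eq_zero_of_notMem_tsupport (fun h => hy (hψs h))]; simp)] at hw
    have hiu : Integrable (fun y => u y * fderiv ℝ (ψ k) y (Pi.single j 1)) volume :=
      (hD.integrable_of_hasCompactSupport hDc).bdd_mul (c := 1) hum.aestronglyMeasurable
        (ae_of_all _ fun y => by rw [Real.norm_eq_abs]; exact hu1 y)
    have hiy : Integrable (fun y : Sp n => y i * fderiv ℝ (ψ k) y (Pi.single j 1)) volume :=
      ((continuous_apply i).mul hD).integrable_of_hasCompactSupport hDc.mul_left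
    have hψi : Integrable (ψ k) volume := hψ.continuous.integrable_of_hasCompactSupport hψc
    have hGψ : Integrable (fun y => G y * ψ k y) volume :=
      hGi.mul_bdd (c := C) hψ.continuous.aestronglyMeasurable (ae_of_all _ fun y => by
        show ‖φ y * cut k (y i)‖ ≤ C
        rw [norm_mul]
        refine (mul_le_of_le_one_right (norm_nonneg _) ?_).trans (hC y)
        rw [Real.norm_eq_abs]; exact abs_cut_le k _)
    have e1 : ∫ y, f y i * fderiv ℝ (ψ k) y (Pi.single j 1) =
        ∫ y, (u y * fderiv ℝ (ψ k) y (Pi.single j 1) + y i * fderiv ℝ (ψ k) y (Pi.single j 1)) := by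
      refine integral_congr_ae (ae_of_all _ fun y => ?_)
      by_cases hy : y ∈ cube n
      · simp only [u, extC_of_cube hf hy]; ring
      · simp [fderiv_of_notMem_tsupport ℝ (fun h => hy (hψs h))]
    have e2 : ∫ y, g i j y * ψ k y = ∫ y, (G y * ψ k y + δ * ψ k y) := by
      refine integral_congr_ae (ae_of_all _ fun y => ?_)
      by_cases hy : y ∈ cube n
      · simp only [G, extG_of_mem hy]; ring
      · simp [image_eq_zero_of_notMem_tsupport (fun h => hy (hψs h))]
    rw [e1, integral_add hiu hiy, coord_weakGrad i j hψ hψc, e2,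
      integral_add hGψ (hψi.const_mul _), integral_const_mul] at hw
    have hθ : ∀ s c' : ℝ, Integrable (fun y : Sp n => u y * φ y * (((k : ℝ) + 4) *
        deriv Real.smoothTransition (s * ((k : ℝ) + 4) * (y i - c') - 1))) volume := fun s c' => by
      have hc : Continuous fun y : Sp n => φ y * (((k : ℝ) + 4) *
          deriv Real.smoothTransition (s * ((k : ℝ) + 4) * (y i - c') - 1)) :=
        hφ.continuous.mul (continuous_const.mul (continuous_deriv_smoothTransition.comp (by fun_prop)))
      refine ((hc.integrable_of_hasCompactSupport hφc.mul_right).bdd_mul (c := 1)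
        hum.aestronglyMeasurable (ae_of_all _ fun y => by rw [Real.norm_eq_abs]; exact hu1 y)).congr
        (ae_of_all _ fun y => ?_)
      show u y * (φ y * _) = _
      ring
    have hi0 : Integrable (fun y => u y * dφ y * cut k (y i)) volume := by
      refine ((hdφ.mul hcut.continuous).integrable_of_hasCompactSupport hdφc.mul_right).bdd_mul (c := 1)
        hum.aestronglyMeasurable (ae_of_all _ fun y => by rw [Real.norm_eq_abs]; exact hu1 y) |>.congr
        (ae_of_all _ fun y => ?_)
      show u y * (dφ y * cut k (y i)) = _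
      ring
    have e3 : ∫ y, u y * fderiv ℝ (ψ k) y (Pi.single j 1) =
        ∫ y, (u y * dφ y * cut k (y i) + δ * (u y * φ y * θ1 y - u y * φ y * θ2 y)) :=
      integral_congr_ae (ae_of_all _ fun y => by simp only [hder]; ring)
    have hi12 : Integrable (fun y => δ * (u y * φ y * θ1 y - u y * φ y * θ2 y)) volume :=
      ((hθ 1 0).sub (hθ (-1) 1)).const_mul δ
    rw [e3, integral_add hi0 hi12, integral_const_mul, integral_sub (hθ 1 0) (hθ (-1) 1)] at hw
    simp only [θ1, θ2] at hw
    linarith
  -- let the cut go to the faces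
  have hlim1 : Tendsto (fun k => ∫ y, u y * dφ y * cut k (y i)) atTop (𝓝 (∫ y, u y * dφ y)) := by
    refine tendsto_integral_of_dominated_convergence (fun y => |dφ y|)
      (fun k => ((hum.mul hdφ.measurable).mul
        ((contDiff_cut k).continuous.measurable.comp (measurable_pi_apply i))).aestronglyMeasurable)
      (hdφ.integrable_of_hasCompactSupport hdφc).abs
      (fun k => ae_of_all _ fun y => ?_) (ae_of_all _ fun y => ?_)
    · rw [Real.norm_eq_abs, abs_mul, abs_mul]
      calc |u y| * |dφ y| * |cut k (y i)| ≤ 1 * |dφ y| * 1 :=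
            mul_le_mul (mul_le_mul_of_nonneg_right (hu1 y) (abs_nonneg _)) (abs_cut_le k _) (abs_nonneg _)
              (by positivity)
        _ = _ := by ring
    · by_cases hy : y i ∈ Ioo (0 : ℝ) 1
      · simpa using (tendsto_cut hy).const_mul (u y * dφ y)
      · simp [hu0 y hy]
  have hlim2 : Tendsto (fun k => ∫ y, G y * ψ k y) atTop (𝓝 (∫ y, G y * φ y)) := by
    refine tendsto_integral_of_dominated_convergence (fun y => |G y| * C)
      (fun k => hGi.aestronglyMeasurable.mul
        (hφ.continuous.mul ((contDiff_cut k).continuous.comp (continuous_apply i))).aestronglyMeasurable)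
      (hGi.abs.mul_const C) (fun k => ae_of_all _ fun y => ?_) (ae_of_all _ fun y => ?_)
    · rw [norm_mul, Real.norm_eq_abs]
      refine mul_le_mul_of_nonneg_left ?_ (abs_nonneg _)
      show ‖φ y * cut k (y i)‖ ≤ C
      rw [norm_mul]
      refine (mul_le_of_le_one_right (norm_nonneg _) ?_).trans (hC y)
      rw [Real.norm_eq_abs]; exact abs_cut_le k _
    · by_cases hy : y i ∈ Ioo (0 : ℝ) 1
      · simpa [ψ, mul_assoc] using (tendsto_cut hy).const_mul (G y * φ y)
      · have : G y = 0 := by
          have hn : y ∉ cube n := fun h => hy (mem_cube.1 h i)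
          simp [G, δ, extG_of_notMem hn]
        simp [this]
  have hl1 := tendsto_layer hf hφ.continuous hφc hφs (c := (0 : ℝ)) (σ := 1) (Or.inl ⟨rfl, rfl⟩)
  have hl2 := tendsto_layer hf hφ.continuous hφc hφs (c := (1 : ℝ)) (σ := -1) (Or.inr ⟨rfl, rfl⟩)
  have hmain : ∫ y, u y * dφ y = -∫ y, G y * φ y := by
    refine tendsto_nhds_unique ?_ hlim2.neg
    have h := hlim1.add ((hl1.sub hl2).const_mul δ)
    rw [sub_zero, mul_zero, add_zero] at h
    exact h.congr hid
  have hiu : Integrable (fun y => u y * dφ y) volume :=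
    (hdφ.integrable_of_hasCompactSupport hdφc).bdd_mul (c := 1) hum.aestronglyMeasurable
      (ae_of_all _ fun y => by rw [Real.norm_eq_abs]; exact hu1 y)
  have hiy : Integrable (fun y : Sp n => y i * dφ y) volume :=
    ((continuous_apply i).mul hdφ).integrable_of_hasCompactSupport hdφc.mul_left
  have hGφ : Integrable (fun y => G y * φ y) volume :=
    hGi.mul_bdd (c := C) hφ.continuous.aestronglyMeasurable (ae_of_all _ hC)
  calc ∫ y, extC f i y * dφ y = ∫ y, (u y * dφ y + y i * dφ y) :=
        integral_congr_ae (ae_of_all _ fun y => by simp only [u]; ring)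
    _ = -(∫ y, G y * φ y) + -(δ * ∫ y, φ y) := by
        rw [integral_add hiu hiy, hmain, coord_weakGrad i j hφ hφc]
    _ = -∫ y, (G y * φ y + δ * φ y) := by
        rw [integral_add hGφ ((hφ.continuous.integrable_of_hasCompactSupport hφc).const_mul δ),
          integral_const_mul]
        ring
    _ = _ := by
        congr 1
        exact integral_congr_ae (ae_of_all _ fun y => by simp only [G]; ring)

end Vale.Agent.P073
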